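import Vale.Agent.P338.R2.H898.Machine
import Vale.Agent.Lib.PolyTime.Typed

/-!
P338-D: the interface between the core program (files) and the Turing machine.
-/

namespace Vale.Agent.P338.R3.H772

open Vale.Agent.P338.R2.H898
open Vale.Agent.Lib.PolyTime (Enc PT)

/-- The value of a binary word, least significant bit first. -/
def lval : List Bool → ℕ
  | [] => 0
  | b :: x => b.toNat + 2 * lval x

/-- The files at the start of the core program: the operands on `fx` and `fy` (least significant
bit first), the code of the parameters on `fp`, all other files empty. -/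
def coreIn {F α : Type} [DecidableEq F] (bit : Bool → α) (fx fy fp : F) (x y c : List Bool) :
    F → Zip α :=
  fun f => if f = fx then ⟨[], x.map bit⟩ else if f = fy then ⟨[], y.map bit⟩ else
    if f = fp then ⟨[], c.map bit⟩ else ⟨[], []⟩

/-- **The core program**: for all parameters `p ∈ V` and all operands of length `cap p` it writes
the product (least significant bit first, length `2 * cap p`) on the file `fr`, at cost at most
`cost p`. -/
def CoreSpec {M F α P : Type} [DecidableEq F] [Enc P] (d : α) (bit : Bool → α) (m0 : M)
    (core : Prog M F α) (fx fy fp fr : F) (V : Set P) (cap cost : P → ℕ) : Prop :=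
  ∀ p ∈ V, ∀ x y : List Bool, x.length = cap p → y.length = cap p →
    ∃ (s' : Store M F α) (z : List Bool),
      Prog.Run d core ⟨m0, coreIn bit fx fy fp x y (Enc.enc p)⟩ (cost p) s' ∧
      s'.z fr = ⟨[], z.map bit⟩ ∧ z.length = 2 * cap p ∧ lval z = lval x * lval y

/-- **TOP**: the Turing machine of a core program. `par n` are the parameters used for operands of
length `n` (computed in polynomial time from `n` in binary). -/
def TopStatement : Prop :=
  ∀ {M F α P : Type} [DecidableEq F] [Finite M] [Finite F] [Finite α] [Enc P] (d : α)
    (enc : Letter → α) (dl : α → Letter) (_ : ∀ a, dl (enc a) = a) (m0 : M)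
    (core : Prog M F α) (fx fy fp fr : F) (V : Set P) (cap cost : P → ℕ) (par : ℕ → P),
    [fx, fy, fp].Nodup → CoreSpec d (fun b => enc (bitL b)) m0 core fx fy fp fr V cap cost →
    PT ∅ par → PT ∅ (fun n => cap (par n)) → (∀ n, 1 ≤ n → par n ∈ V) → (∀ n, 1 ≤ n → n ≤ cap (par n)) →
    ∃ B : MTM, Multiplies B ∧ ∃ C : ℕ, ∀ n, 1 ≤ n →
      mulTime B n ≤ C * (cost (par n) + cap (par n))

end Vale.Agent.P338.R3.H772
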