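import Vale.Agent.P338.R3.H772.TopMain
import Vale.Agent.P338.R3.H831.End3
import Vale.Agent.P338.R2.H968.School

/-!
P338-D: the final composition.
-/

namespace Vale.Agent.P338.R3.H772

open Vale.Agent.P338.R2.H898
open Vale.Agent.Lib.PolyTime (Enc PT)
open Vale.Agent.P338.R3.H831

/-- There is a core program for the parameters in `V`, with capacities `cap` and cost `cst`. -/
def HasCore {P : Type} [Enc P] (V : Set P) (cap cst : P → ℕ) : Prop :=
  ∃ (M F α : Type) (_ : DecidableEq F) (_ : Finite M) (_ : Finite F)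
    (_ : Finite α) (d : α) (enc : Letter → α) (dl : α → Letter) (m0 : M) (core : Prog M F α)
    (fx fy fp fr : F), (∀ a, dl (enc a) = a) ∧ [fx, fy, fp].Nodup ∧
      CoreSpec d (fun b => enc (bitL b)) m0 core fx fy fp fr V cap cst

/-- A machine for every choice of the parameters. -/
theorem machine_of_core {P : Type} [Enc P] {V : Set P} {cap cst : P → ℕ}
    (hcore : HasCore V cap cst) {par : ℕ → P} (hpar : PT ∅ par)
    (hcap : PT ∅ fun n => cap (par n))
    (hV : ∀ n, 1 ≤ n → par n ∈ V) (hn : ∀ n, 1 ≤ n → n ≤ cap (par n)) :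
    ∃ B : MTM, Multiplies B ∧ ∃ C : ℕ, ∀ n, 1 ≤ n →
      mulTime B n ≤ C * (cst (par n) + cap (par n)) := by
  obtain ⟨M, F, α, _, _, _, _, d, enc, dl, m0, core, fx, fy, fp, fr, hdl, hnd, hc⟩ := hcore
  exact top d enc dl hdl m0 core fx fy fp fr V cap cst par hnd hc hpar hcap hV hn

/-- The choice of the parameters of a stage: `par` is computable and admissible, and for every cost
function of the form `Bd A` the resulting machine fulfils the requirement `St` of the stage. -/
def StageOK {P : Type} [Enc P] (V : Set P) (cap : P → ℕ) (Bd : MTM → (P → ℕ) → Prop)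
    (St : MTM → MTM → Prop) (par : ℕ → P) : Prop :=
  PT ∅ par ∧ PT ∅ (fun n => cap (par n)) ∧ (∀ n, 1 ≤ n → par n ∈ V) ∧ (∀ n, 1 ≤ n → n ≤ cap (par n)) ∧
    ∀ A B : MTM, Multiplies A → ∀ cst : P → ℕ, Bd A cst → (∃ C : ℕ, ∀ n, 1 ≤ n →
      mulTime B n ≤ C * (cst (par n) + cap (par n))) → St A B

theorem exists_poly : ∃ S : MTM, Multiplies S ∧ PolyTimeMul S := by
  obtain ⟨S, hS, h⟩ := Vale.Agent.P338.R2.H968.School.exists_school
  exact ⟨S, hS, 600, 2, fun n hn => h n hn⟩

/-- One stage. -/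
theorem stage_of_core {P : Type} [Enc P] {V : Set P} {cap : P → ℕ} {Bd : MTM → (P → ℕ) → Prop}
    {St : MTM → MTM → Prop} (hcore : ∀ A, Multiplies A → ∃ cst, Bd A cst ∧ HasCore V cap cst)
    {par : ℕ → P} (h : StageOK V cap Bd St par) (A : MTM) (hA : Multiplies A) :
    ∃ B, Multiplies B ∧ St A B := by
  obtain ⟨h1, h0, h2, h3, h4⟩ := h
  obtain ⟨cst, hb, hc⟩ := hcore A hA
  obtain ⟨B, hB1, hB2⟩ := machine_of_core hc h1 h0 h2 h3
  exact ⟨B, hB1, h4 A B hA cst hb hB2⟩

/-- The general form of the choice of the parameters (which may depend on `A` and on all constants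
of the cost function). -/
def StageFor {P : Type} [Enc P] (V : Set P) (cap cst : P → ℕ) (St : MTM → Prop) : Prop :=
  ∃ par : ℕ → P, PT ∅ par ∧ PT ∅ (fun n => cap (par n)) ∧ (∀ n, 1 ≤ n → par n ∈ V) ∧
    (∀ n, 1 ≤ n → n ≤ cap (par n)) ∧
    ∀ B : MTM, (∃ C : ℕ, ∀ n, 1 ≤ n → mulTime B n ≤ C * (cst (par n) + cap (par n))) → St B

/-- One stage, general form. -/
theorem stage_of_core' {P : Type} [Enc P] {V : Set P} {cap : P → ℕ} {Bd : MTM → (P → ℕ) → Prop}
    {St : MTM → MTM → Prop} (hcore : ∀ A, Multiplies A → ∃ cst, Bd A cst ∧ HasCore V cap cst)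
    (h : ∀ A, Multiplies A → ∀ cst, Bd A cst → StageFor V cap cst (St A)) (A : MTM)
    (hA : Multiplies A) : ∃ B, Multiplies B ∧ St A B := by
  obtain ⟨cst, hb, hc⟩ := hcore A hA
  obtain ⟨par, h1, h0, h2, h3, h4⟩ := h A hA cst hb
  obtain ⟨B, hB1, hB2⟩ := machine_of_core hc h1 h0 h2 h3
  exact ⟨B, hB1, h4 B hB2⟩

/-- **The final composition**, general form: all constants may depend on `A`. -/
theorem fast_of_core' {P : Type} [Enc P] {V : Set P} {cap : P → ℕ} {Bd : MTM → (P → ℕ) → Prop}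
    (hcore : ∀ A, Multiplies A → ∃ cst, Bd A cst ∧ HasCore V cap cst)
    (hA : ∀ A, Multiplies A → ∀ cst, Bd A cst → StageFor V cap cst (StageA A))
    (hB : ∀ A, Multiplies A → ∀ cst, Bd A cst → StageFor V cap cst (StageB A)) :
    ∃ A, Multiplies A ∧ FastAlways A :=
  exists_fast exists_poly (stage_of_core' hcore hA) (stage_of_core' hcore hB)

/-- **The final composition.** -/
theorem fast_of_core {P : Type} [Enc P] {V : Set P} {cap : P → ℕ} {Bd : MTM → (P → ℕ) → Prop}
    (hcore : ∀ A, Multiplies A → ∃ cst, Bd A cst ∧ HasCore V cap cst)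
    {parA parB : ℕ → P} (hA : StageOK V cap Bd StageA parA) (hB : StageOK V cap Bd StageB parB) :
    ∃ A, Multiplies A ∧ FastAlways A :=
  exists_fast exists_poly (stage_of_core hcore hA) (stage_of_core hcore hB)

end Vale.Agent.P338.R3.H772
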