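import Vale.Agent.P338.R2.H898.Model

/-!
P338-D: the last step of the disproof of Q1 (no machines are constructed here).

`PipeStep A B`: the interface of the pipeline: the machine `B` multiplies with calls of `A` on short
words. `FastOften A`, `FastAlways A`: the final statements. Main results:
`fastAlways_of_pipe`, `fastOften_of_pipe`, `not_mulHard_of_fastOften`.
-/

namespace Vale.Agent.P338.R3.H772

open Vale.Agent.P338.R2.H898 Filter

/-- `liminf T_A(n) / (n log n) = 0`. -/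
def FastOften (A : MTM) : Prop :=
  ∀ ε : ℝ, 0 < ε → ∀ N : ℕ, ∃ n ≥ N, (mulTime A n : ℝ) < ε * (n * Real.log n)

/-- `T_A(n) = o(n log n)`. -/
def FastAlways (A : MTM) : Prop :=
  ∀ ε : ℝ, 0 < ε → ∃ N : ℕ, ∀ n ≥ N, (mulTime A n : ℝ) < ε * (n * Real.log n)

/-- Polynomial time (the schoolbook method). -/
def PolyTimeMul (A : MTM) : Prop := ∃ C K : ℕ, ∀ n ≥ 1, mulTime A n ≤ C * n ^ K

/-- Almost linear time. -/
def AlmostLinear (A : MTM) : Prop :=
  ∀ ε : ℝ, 0 < ε → ∃ C : ℝ, ∀ n : ℕ, 1 ≤ n → (mulTime A n : ℝ) ≤ C * (n : ℝ) ^ (1 + ε)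

/-- The parameters of the pipeline: a sequence of capacities `cap i` (lengths of the operands) with
dimensions `D i`. -/
structure Family (cap D : ℕ → ℕ) : Prop where
  /-- the capacities increase -/
  mono : ∀ i, cap i < cap (i + 1)
  /-- and are not too sparse: `cap (i + 1) ≤ cap i ^ (1 + o(1))` -/
  dense : ∀ ε : ℝ, 0 < ε → ∀ᶠ i in atTop, (cap (i + 1) : ℝ) ≤ (cap i : ℝ) ^ (1 + ε)
  /-- the dimensions tend to infinity -/
  top : Tendsto D atTop atTop
  /-- and are at most polylogarithmic in the capacities -/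
  log_le : ∃ K : ℕ, ∀ i, (D i : ℝ) ≤ (1 + Real.log (cap i)) ^ K

/-- The lengths at which `A` is called are polynomial in the dimension. -/
def PolyLen (D b : ℕ → ℕ) : Prop := ∃ K : ℕ, ∀ i, 1 ≤ b i ∧ b i ≤ (D i + 2) ^ K

/-- **The cost of the pipeline.** `B` multiplies `n`-bit numbers, `cap (i - 1) < n ≤ cap i`, with
the parameters of index `i`; `ρ i` is the saving (number of zeta passes divided by the length of the
index), `D i ^ (-δ)` bounds the number of diagonal passes divided by the length of the index, `b` is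
the length of the words, `l` the length of the products of cells. -/
def PipeCost (A B : MTM) (cap D b l : ℕ → ℕ) (δ : ℝ) (ρ : ℕ → ℝ) : Prop :=
  ∃ C : ℝ, ∀ i n, (i = 0 ∨ cap (i - 1) < n) → n ≤ cap i → 1 ≤ n →
    (mulTime B n : ℝ) ≤ C * (cap i * (1 + Real.log (cap i))) *
      (ρ i + (D i + 1 : ℝ) ^ (-δ) * (mulTime A (b i) / b i + mulTime A (l i) / l i))

/-- **The pipeline.** -/
def PipeStep (A B : MTM) : Prop :=
  ∃ (cap D b l : ℕ → ℕ) (δ : ℝ) (ρ : ℕ → ℝ), Family cap D ∧ PolyLen D b ∧ PolyLen D l ∧ 0 < δ ∧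
    Tendsto ρ atTop (nhds 0) ∧ PipeCost A B cap D b l δ ρ

/-- The pipeline with dense capacities. -/
def PipeStepDense (A B : MTM) : Prop :=
  ∃ (cap D b l : ℕ → ℕ) (δ : ℝ) (ρ : ℕ → ℝ), Family cap D ∧ PolyLen D b ∧ PolyLen D l ∧ 0 < δ ∧
    Tendsto ρ atTop (nhds 0) ∧ (∃ Q : ℕ, ∀ i, cap (i + 1) ≤ Q * cap i) ∧ 
    PipeCost A B cap D b l δ ρ

/-- The negation of Q1. -/
theorem not_mulHard_of_fastOften {A : MTM} (h : FastOften A) : ¬ MulHard A := by
  rintro ⟨c, hc, N, -, hN⟩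
  obtain ⟨n, hn, h1⟩ := h c hc N
  exact absurd (hN n hn) (not_le.mpr h1)

theorem FastAlways.often {A : MTM} (h : FastAlways A) : FastOften A := by
  intro ε hε N
  obtain ⟨M, hM⟩ := h ε hε
  exact ⟨max N M, le_max_left _ _, hM _ (le_max_right _ _)⟩

end Vale.Agent.P338.R3.H772
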