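import Vale.Agent.P338.R3.H772.End

/-!
P338-D: proof of the last step (real analysis).
-/

namespace Vale.Agent.P338.R3.H772

open Vale.Agent.P338.R2.H898 Filter Topology

/-- Powers of the logarithm are small. -/
theorem log_pow_le {ε : ℝ} (hε : 0 < ε) (K : ℕ) :
    ∃ C : ℝ, 0 < C ∧ ∀ x : ℝ, 1 ≤ x → (1 + Real.log x) ^ K ≤ C * x ^ ε := by
  have hK : (0 : ℝ) < ε / (K + 1) := by positivity
  refine ⟨(1 + 1 / (ε / (K + 1))) ^ K, by positivity, fun x hx => ?_⟩
  have hx0 : (0 : ℝ) ≤ x := by linarith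
  have h1 : Real.log x ≤ x ^ (ε / (K + 1)) / (ε / (K + 1)) := Real.log_le_rpow_div hx0 hK
  have h2 : (1 : ℝ) ≤ x ^ (ε / (K + 1)) := Real.one_le_rpow hx hK.le
  have h3 : 1 + Real.log x ≤ (1 + 1 / (ε / (K + 1))) * x ^ (ε / (K + 1)) := by
    calc 1 + Real.log x ≤ x ^ (ε / (K + 1)) + x ^ (ε / (K + 1)) / (ε / (K + 1)) := by linarith
      _ = _ := by ring
  have h4 : 0 ≤ 1 + Real.log x := by
    have := Real.log_nonneg hx
    linarith
  calc (1 + Real.log x) ^ K ≤ ((1 + 1 / (ε / (K + 1))) * x ^ (ε / (K + 1))) ^ K :=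
        pow_le_pow_left₀ h4 h3 K
    _ = (1 + 1 / (ε / (K + 1))) ^ K * x ^ (ε / (K + 1) * K) := by
        rw [mul_pow, ← Real.rpow_mul_natCast hx0]
    _ ≤ (1 + 1 / (ε / (K + 1))) ^ K * x ^ ε := by
        apply mul_le_mul_of_nonneg_left _ (by positivity)
        apply Real.rpow_le_rpow_of_exponent_le hx
        rw [div_mul_eq_mul_div, div_le_iff₀ (by positivity)]
        nlinarith

theorem Family.strictMono {cap D : ℕ → ℕ} (h : Family cap D) : StrictMono cap :=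
  strictMono_nat_of_lt_succ h.mono

/-- Every length belongs to a parameter. -/
theorem Family.exists_index {cap D : ℕ → ℕ} (h : Family cap D) (n : ℕ) :
    ∃ i, (i = 0 ∨ cap (i - 1) < n) ∧ n ≤ cap i := by
  classical
  have hex : ∃ i, n ≤ cap i := ⟨n, h.strictMono.id_le n⟩
  refine ⟨Nat.find hex, ?_, Nat.find_spec hex⟩
  rcases Nat.eq_zero_or_pos (Nat.find hex) with h0 | h0
  · exact Or.inl h0
  · refine Or.inr ?_
    have := Nat.find_min hex (m := Nat.find hex - 1) (by omega)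
    omega

theorem rpow_add_two_le {D K : ℕ} {e : ℝ} (he : 0 ≤ e) {b : ℕ} (hb : b ≤ (D + 2) ^ K) :
    (b : ℝ) ^ e ≤ (2 : ℝ) ^ (K * e) * (D + 1 : ℝ) ^ (K * e) := by
  have h1 : (b : ℝ) ≤ ((D : ℝ) + 2) ^ K := by exact_mod_cast hb
  have h2 : ((D : ℝ) + 2) ≤ 2 * (D + 1) := by
    have : (0 : ℝ) ≤ D := Nat.cast_nonneg _
    linarith
  have hD : (0 : ℝ) ≤ D := Nat.cast_nonneg _
  calc (b : ℝ) ^ e ≤ (((D : ℝ) + 2) ^ K) ^ e := Real.rpow_le_rpow (Nat.cast_nonneg _) h1 he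
    _ = ((D : ℝ) + 2) ^ (K * e) := by
        rw [← Real.rpow_natCast, ← Real.rpow_mul (by positivity)]
    _ ≤ (2 * (D + 1 : ℝ)) ^ (K * e) :=
        Real.rpow_le_rpow (by positivity) h2 (by positivity)
    _ = _ := Real.mul_rpow (by norm_num) (by positivity)

/-- The cost factor of the pipeline. -/
noncomputable def fac (A : MTM) (D b l : ℕ → ℕ) (δ : ℝ) (ρ : ℕ → ℝ) (i : ℕ) : ℝ :=
  |ρ i| + (D i + 1 : ℝ) ^ (-δ) * (mulTime A (b i) / b i + mulTime A (l i) / l i)

theorem fac_nonneg (A : MTM) (D b l : ℕ → ℕ) (δ : ℝ) (ρ : ℕ → ℝ) (i : ℕ) :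
    0 ≤ fac A D b l δ ρ i := by
  unfold fac
  positivity

theorem PipeCost.le {A B : MTM} {cap D b l : ℕ → ℕ} {δ : ℝ} {ρ : ℕ → ℝ}
    (h : PipeCost A B cap D b l δ ρ) : ∃ C : ℝ, 0 ≤ C ∧ ∀ i n, (i = 0 ∨ cap (i - 1) < n) →
      n ≤ cap i → 1 ≤ n →
        (mulTime B n : ℝ) ≤ C * (cap i * (1 + Real.log (cap i))) * fac A D b l δ ρ i := by
  obtain ⟨C, hC⟩ := h
  refine ⟨|C|, abs_nonneg C, fun i n h1 h2 h3 => (hC i n h1 h2 h3).trans ?_⟩
  have hcap : (1 : ℝ) ≤ cap i := by exact_mod_cast h3.trans h2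
  have hlog := Real.log_nonneg hcap
  have a1 : 0 ≤ (cap i : ℝ) * (1 + Real.log (cap i)) := by positivity
  have a2 : ρ i + (D i + 1 : ℝ) ^ (-δ) * (mulTime A (b i) / b i + mulTime A (l i) / l i) ≤
      fac A D b l δ ρ i := by
    unfold fac
    have := le_abs_self (ρ i)
    linarith
  have a3 : |ρ i + (D i + 1 : ℝ) ^ (-δ) * (mulTime A (b i) / b i + mulTime A (l i) / l i)| ≤
      fac A D b l δ ρ i := by
    unfold fac
    refine (abs_add_le _ _).trans ?_
    have : |(D i + 1 : ℝ) ^ (-δ) * (mulTime A (b i) / b i + mulTime A (l i) / l i)| =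
        (D i + 1 : ℝ) ^ (-δ) * (mulTime A (b i) / b i + mulTime A (l i) / l i) :=
      abs_of_nonneg (by positivity)
    rw [this]
  calc C * (cap i * (1 + Real.log (cap i))) * (ρ i + (D i + 1 : ℝ) ^ (-δ) *
        (mulTime A (b i) / b i + mulTime A (l i) / l i))
      ≤ |C * (cap i * (1 + Real.log (cap i))) * (ρ i + (D i + 1 : ℝ) ^ (-δ) *
        (mulTime A (b i) / b i + mulTime A (l i) / l i))| := le_abs_self _
    _ = |C| * (cap i * (1 + Real.log (cap i))) * |ρ i + (D i + 1 : ℝ) ^ (-δ) *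
        (mulTime A (b i) / b i + mulTime A (l i) / l i)| := by
        rw [abs_mul, abs_mul, abs_of_nonneg a1]
    _ ≤ |C| * (cap i * (1 + Real.log (cap i))) * fac A D b l δ ρ i :=
        mul_le_mul_of_nonneg_left a3 (by positivity)

/-- If `A` is almost linear, then the cost factor tends to zero. -/
theorem tendsto_fac {A : MTM} (hA : AlmostLinear A) {D b l : ℕ → ℕ} {δ : ℝ} {ρ : ℕ → ℝ}
    (hD : Tendsto D atTop atTop) (hb : PolyLen D b) (hl : PolyLen D l) (hδ : 0 < δ)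
    (hρ : Tendsto ρ atTop (𝓝 0)) : Tendsto (fac A D b l δ ρ) atTop (𝓝 0) := by
  have key : ∀ w : ℕ → ℕ, PolyLen D w →
      Tendsto (fun i => (D i + 1 : ℝ) ^ (-δ) * ((mulTime A (w i) : ℝ) / w i)) atTop (𝓝 0) := by
    rintro w ⟨K, hK⟩
    obtain ⟨C, hC⟩ := hA (δ / (2 * (K + 1))) (by positivity)
    have hC0 : 0 ≤ C := by
      have := hC 1 le_rfl
      simp at this
      exact (Nat.cast_nonneg _).trans this
    set e : ℝ := δ / (2 * (K + 1)) with he
    have he0 : 0 ≤ e := by positivity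
    have hKe : K * e ≤ δ / 2 := by
      rw [he, mul_div_assoc', div_le_div_iff₀ (by positivity) (by norm_num)]
      nlinarith
    have hbound : ∀ i, (D i + 1 : ℝ) ^ (-δ) * ((mulTime A (w i) : ℝ) / w i) ≤
        C * (2 : ℝ) ^ (K * e) * (D i + 1 : ℝ) ^ (-(δ / 2)) := by
      intro i
      obtain ⟨h1, h2⟩ := hK i
      have hw : (1 : ℝ) ≤ w i := by exact_mod_cast h1
      have h3 : (mulTime A (w i) : ℝ) / w i ≤ C * (w i : ℝ) ^ e := by
        rw [div_le_iff₀ (by linarith)]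
        refine (hC (w i) h1).trans (le_of_eq ?_)
        rw [Real.rpow_add (by linarith), Real.rpow_one]
        ring
      have h4 := rpow_add_two_le (D := D i) he0 h2
      have hD1 : (1 : ℝ) ≤ D i + 1 := by
        have : (0 : ℝ) ≤ D i := Nat.cast_nonneg _
        linarith
      have h5 : (D i + 1 : ℝ) ^ (K * e) ≤ (D i + 1 : ℝ) ^ (δ / 2) :=
        Real.rpow_le_rpow_of_exponent_le hD1 hKe
      calc (D i + 1 : ℝ) ^ (-δ) * ((mulTime A (w i) : ℝ) / w i)
          ≤ (D i + 1 : ℝ) ^ (-δ) * (C * ((2 : ℝ) ^ (K * e) * (D i + 1 : ℝ) ^ (δ / 2))) := by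
            apply mul_le_mul_of_nonneg_left _ (by positivity)
            refine h3.trans (mul_le_mul_of_nonneg_left (h4.trans ?_) hC0)
            exact mul_le_mul_of_nonneg_left h5 (by positivity)
        _ = C * (2 : ℝ) ^ (K * e) * ((D i + 1 : ℝ) ^ (-δ) * (D i + 1 : ℝ) ^ (δ / 2)) := by ring
        _ = C * (2 : ℝ) ^ (K * e) * (D i + 1 : ℝ) ^ (-(δ / 2)) := by
            rw [← Real.rpow_add (by linarith)]
            congr 2
            ring
    have hlim : Tendsto (fun i => C * (2 : ℝ) ^ (K * e) * (D i + 1 : ℝ) ^ (-(δ / 2))) atTop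
        (𝓝 (C * (2 : ℝ) ^ (K * e) * 0)) := by
      refine Tendsto.const_mul _ ?_
      have t1 : Tendsto (fun i => ((D i : ℝ) + 1)) atTop atTop :=
        tendsto_atTop_add_const_right _ _ (tendsto_natCast_atTop_atTop.comp hD)
      exact (tendsto_rpow_neg_atTop (by positivity : 0 < δ / 2)).comp t1
    rw [mul_zero] at hlim
    exact squeeze_zero (fun i => by positivity) hbound hlim
  have h1 := key b hb
  have h2 := key l hl
  have h3 : Tendsto (fun i => |ρ i|) atTop (𝓝 0) := by simpa using hρ.abs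
  have h4 := h3.add (h1.add h2)
  simp only [add_zero] at h4
  refine h4.congr fun i => ?_
  unfold fac
  ring

/-- If `A` runs in polynomial time, then the cost factor is polynomial in the dimension. -/
theorem fac_le {A : MTM} (hA : PolyTimeMul A) {D b l : ℕ → ℕ} {δ : ℝ} {ρ : ℕ → ℝ}
    (hb : PolyLen D b) (hl : PolyLen D l) (hδ : 0 < δ)
    (hρ : Tendsto ρ atTop (𝓝 0)) : ∃ (C : ℝ) (K : ℕ), 0 ≤ C ∧ ∀ i,
      fac A D b l δ ρ i ≤ C * (D i + 2 : ℝ) ^ K := by
  obtain ⟨C0, K0, hA⟩ := hA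
  have key : ∀ w : ℕ → ℕ, PolyLen D w → ∃ K : ℕ, ∀ i,
      (D i + 1 : ℝ) ^ (-δ) * ((mulTime A (w i) : ℝ) / w i) ≤ C0 * (D i + 2 : ℝ) ^ K := by
    rintro w ⟨K, hK⟩
    refine ⟨K * K0, fun i => ?_⟩
    obtain ⟨h1, h2⟩ := hK i
    have hw : (1 : ℝ) ≤ w i := by exact_mod_cast h1
    have hD : (0 : ℝ) ≤ D i := Nat.cast_nonneg _
    have h3 : (mulTime A (w i) : ℝ) ≤ C0 * (w i : ℝ) ^ K0 := by exact_mod_cast hA (w i) h1
    have h4 : (mulTime A (w i) : ℝ) / w i ≤ C0 * (w i : ℝ) ^ K0 :=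
      (div_le_self (Nat.cast_nonneg _) hw).trans h3
    have h5 : (w i : ℝ) ≤ ((D i : ℝ) + 2) ^ K := by exact_mod_cast h2
    have h6 : (D i + 1 : ℝ) ^ (-δ) ≤ 1 := by
      apply Real.rpow_le_one_of_one_le_of_nonpos
      · linarith
      · linarith
    calc (D i + 1 : ℝ) ^ (-δ) * ((mulTime A (w i) : ℝ) / w i)
        ≤ 1 * (C0 * (((D i : ℝ) + 2) ^ K) ^ K0) := by
          apply mul_le_mul h6 _ (by positivity) zero_le_one
          refine h4.trans (mul_le_mul_of_nonneg_left ?_ (by positivity))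
          exact pow_le_pow_left₀ (by positivity) h5 _
      _ = C0 * (D i + 2 : ℝ) ^ (K * K0) := by rw [one_mul, ← pow_mul]
  obtain ⟨K1, h1⟩ := key b hb
  obtain ⟨K2, h2⟩ := key l hl
  obtain ⟨R, hR⟩ : ∃ R : ℝ, ∀ i, |ρ i| ≤ R := by
    obtain ⟨R, hR⟩ := hρ.abs.bddAbove_range
    exact ⟨R, fun i => hR ⟨i, rfl⟩⟩
  have hR0 : 0 ≤ R := (abs_nonneg _).trans (hR 0)
  refine ⟨R + C0 + C0, max K1 K2, by positivity, fun i => ?_⟩
  have hD : (0 : ℝ) ≤ D i := Nat.cast_nonneg _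
  have hD2 : (1 : ℝ) ≤ D i + 2 := by linarith
  have p0 : (1 : ℝ) ≤ (D i + 2 : ℝ) ^ (max K1 K2) := one_le_pow₀ hD2
  have p1 : (D i + 2 : ℝ) ^ K1 ≤ (D i + 2 : ℝ) ^ (max K1 K2) :=
    pow_le_pow_right₀ hD2 (le_max_left _ _)
  have p2 : (D i + 2 : ℝ) ^ K2 ≤ (D i + 2 : ℝ) ^ (max K1 K2) :=
    pow_le_pow_right₀ hD2 (le_max_right _ _)
  have e : fac A D b l δ ρ i = |ρ i| + ((D i + 1 : ℝ) ^ (-δ) * ((mulTime A (b i) : ℝ) / b i) +
      (D i + 1 : ℝ) ^ (-δ) * ((mulTime A (l i) : ℝ) / l i)) := by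
    unfold fac
    ring
  rw [e]
  have q0 : |ρ i| ≤ R * (D i + 2 : ℝ) ^ (max K1 K2) := by
    calc |ρ i| ≤ R * 1 := by rw [mul_one]; exact hR i
      _ ≤ _ := mul_le_mul_of_nonneg_left p0 hR0
  have q1 := (h1 i).trans (mul_le_mul_of_nonneg_left p1 (Nat.cast_nonneg C0))
  have q2 := (h2 i).trans (mul_le_mul_of_nonneg_left p2 (Nat.cast_nonneg C0))
  linarith

/-- **Stage 1.** -/
theorem almostLinear_of_pipe {A B : MTM} (hA : PolyTimeMul A) (h : PipeStep A B) :
    AlmostLinear B := by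
  obtain ⟨cap, D, b, l, δ, ρ, hF, hb, hl, hδ, hρ, hcost⟩ := h
  obtain ⟨C, hC0, hC⟩ := hcost.le
  obtain ⟨C1, K1, hC1, hfac⟩ := fac_le hA hb hl hδ hρ
  obtain ⟨K, hK⟩ := hF.log_le
  -- the cost is at most `cap * polylog cap`
  have hlen : ∀ i n, (i = 0 ∨ cap (i - 1) < n) → n ≤ cap i → 1 ≤ n →
      (mulTime B n : ℝ) ≤ C * C1 * 3 ^ K1 * (cap i * (1 + Real.log (cap i)) ^ (K * K1 + 1)) := by
    intro i n h1 h2 h3
    have hcap : (1 : ℝ) ≤ cap i := by exact_mod_cast h3.trans h2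
    have hlog := Real.log_nonneg hcap
    have hL : (1 : ℝ) ≤ 1 + Real.log (cap i) := by linarith
    have a1 : (D i : ℝ) + 2 ≤ 3 * (1 + Real.log (cap i)) ^ K := by
      have := hK i
      have : (1 : ℝ) ≤ (1 + Real.log (cap i)) ^ K := one_le_pow₀ hL
      linarith
    have a2 : (D i + 2 : ℝ) ^ K1 ≤ 3 ^ K1 * (1 + Real.log (cap i)) ^ (K * K1) := by
      calc (D i + 2 : ℝ) ^ K1 ≤ (3 * (1 + Real.log (cap i)) ^ K) ^ K1 :=
            pow_le_pow_left₀ (by positivity) a1 _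
        _ = _ := by rw [mul_pow, ← pow_mul]
    calc (mulTime B n : ℝ) ≤ C * (cap i * (1 + Real.log (cap i))) * fac A D b l δ ρ i :=
          hC i n h1 h2 h3
      _ ≤ C * (cap i * (1 + Real.log (cap i))) *
          (C1 * (3 ^ K1 * (1 + Real.log (cap i)) ^ (K * K1))) := by
          apply mul_le_mul_of_nonneg_left _ (by positivity)
          exact (hfac i).trans (mul_le_mul_of_nonneg_left a2 hC1)
      _ = _ := by ring
  intro ε hε
  set η : ℝ := min (ε / 3) 1 with hη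
  have hη0 : 0 < η := lt_min (by positivity) one_pos
  have hη1 : η ≤ 1 := min_le_right _ _
  have hη3 : η ≤ ε / 3 := min_le_left _ _
  obtain ⟨C2, hC2, hlogpow⟩ := log_pow_le hη0 (K * K1 + 1)
  obtain ⟨i0, hi0⟩ := eventually_atTop.mp (hF.dense η hη0)
  set C3 : ℝ := C * C1 * 3 ^ K1 * C2 with hC3
  have hC30 : 0 ≤ C3 := by positivity
  have hbd : ∀ i n, (i = 0 ∨ cap (i - 1) < n) → n ≤ cap i → 1 ≤ n →
      (mulTime B n : ℝ) ≤ C3 * (cap i : ℝ) ^ (1 + η) := by
    intro i n h1 h2 h3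
    have hcap : (1 : ℝ) ≤ cap i := by exact_mod_cast h3.trans h2
    refine (hlen i n h1 h2 h3).trans ?_
    have := hlogpow (cap i) hcap
    calc C * C1 * 3 ^ K1 * (cap i * (1 + Real.log (cap i)) ^ (K * K1 + 1))
        ≤ C * C1 * 3 ^ K1 * (cap i * (C2 * (cap i : ℝ) ^ η)) := by
          apply mul_le_mul_of_nonneg_left _ (by positivity)
          exact mul_le_mul_of_nonneg_left this (by positivity)
      _ = C3 * ((cap i : ℝ) ^ (1 : ℝ) * (cap i : ℝ) ^ η) := by
          rw [Real.rpow_one]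
          ring
      _ = _ := by rw [← Real.rpow_add (by linarith)]
  refine ⟨C3 * (cap (i0 + 1) : ℝ) ^ (1 + η) + C3, fun n hn => ?_⟩
  have hn1 : (1 : ℝ) ≤ n := by exact_mod_cast hn
  have hnp : (1 : ℝ) ≤ (n : ℝ) ^ (1 + ε) := Real.one_le_rpow hn1 (by positivity)
  obtain ⟨i, h1, h2⟩ := hF.exists_index n
  have h3 := hbd i n h1 h2 hn
  have hpos : 0 ≤ C3 * (cap (i0 + 1) : ℝ) ^ (1 + η) := by positivity
  rcases Nat.lt_or_ge i (i0 + 1) with hlt | hge
  · -- small indices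
    have h4 : (cap i : ℝ) ≤ cap (i0 + 1) := by
      exact_mod_cast hF.strictMono.monotone hlt.le
    have h5 : (cap i : ℝ) ^ (1 + η) ≤ (cap (i0 + 1) : ℝ) ^ (1 + η) :=
      Real.rpow_le_rpow (Nat.cast_nonneg _) h4 (by positivity)
    have h6 : (mulTime B n : ℝ) ≤ C3 * (cap (i0 + 1) : ℝ) ^ (1 + η) :=
      h3.trans (mul_le_mul_of_nonneg_left h5 hC30)
    calc (mulTime B n : ℝ) ≤ (C3 * (cap (i0 + 1) : ℝ) ^ (1 + η) + C3) * 1 := by linarith
      _ ≤ _ := mul_le_mul_of_nonneg_left hnp (by positivity)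
  · -- large indices
    obtain ⟨j, rfl⟩ : ∃ j, i = j + 1 := ⟨i - 1, by omega⟩
    have h4 : cap j < n := by
      rcases h1 with h | h
      · omega
      · simpa using h
    have h5 : (cap (j + 1) : ℝ) ≤ (cap j : ℝ) ^ (1 + η) := hi0 j (by omega)
    have h6 : (cap j : ℝ) ^ (1 + η) ≤ (n : ℝ) ^ (1 + η) :=
      Real.rpow_le_rpow (Nat.cast_nonneg _) (by exact_mod_cast h4.le) (by positivity)
    have h7 : (cap (j + 1) : ℝ) ^ (1 + η) ≤ (n : ℝ) ^ (1 + ε) := by
      calc (cap (j + 1) : ℝ) ^ (1 + η) ≤ ((n : ℝ) ^ (1 + η)) ^ (1 + η) :=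
            Real.rpow_le_rpow (Nat.cast_nonneg _) (h5.trans h6) (by positivity)
        _ = (n : ℝ) ^ ((1 + η) * (1 + η)) := by rw [← Real.rpow_mul (by positivity)]
        _ ≤ (n : ℝ) ^ (1 + ε) := by
            apply Real.rpow_le_rpow_of_exponent_le hn1
            nlinarith
    calc (mulTime B n : ℝ) ≤ C3 * (cap (j + 1) : ℝ) ^ (1 + η) := h3
      _ ≤ C3 * (n : ℝ) ^ (1 + ε) := mul_le_mul_of_nonneg_left h7 hC30
      _ ≤ _ := by
          apply mul_le_mul_of_nonneg_right _ (by positivity)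
          linarith

/-- **Stage 2, infinitely many lengths.** -/
theorem fastOften_of_pipe {A B : MTM} (hA : AlmostLinear A) (h : PipeStep A B) :
    FastOften B := by
  obtain ⟨cap, D, b, l, δ, ρ, hF, hb, hl, hδ, hρ, hcost⟩ := h
  obtain ⟨C, hC0, hC⟩ := hcost.le
  have hfac := tendsto_fac hA hF.top hb hl hδ hρ
  intro ε hε N
  have h1 : ∀ᶠ i in atTop, fac A D b l δ ρ i < ε / (2 * (C + 1)) :=
    hfac.eventually (gt_mem_nhds (by positivity))
  obtain ⟨i, hi1, hi2⟩ := (h1.and (eventually_ge_atTop (N + 3))).exists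
  have hcapi : N + 3 ≤ cap i := hi2.trans (hF.strictMono.id_le i)
  refine ⟨cap i, by omega, ?_⟩
  have hi0 : i ≠ 0 := by omega
  have h2 := hC i (cap i) (Or.inr (hF.strictMono (by omega))) le_rfl (by omega)
  have hcap : (3 : ℝ) ≤ cap i := by
    have : 3 ≤ cap i := by omega
    exact_mod_cast this
  have hlog : 1 ≤ Real.log (cap i) := by
    rw [Real.le_log_iff_exp_le (by linarith)]
    have := Real.exp_one_lt_d9
    linarith
  have hpos : 0 < (cap i : ℝ) * Real.log (cap i) := by positivity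
  have hf0 := fac_nonneg A D b l δ ρ i
  calc (mulTime B (cap i) : ℝ) ≤ C * (cap i * (1 + Real.log (cap i))) * fac A D b l δ ρ i := h2
    _ ≤ C * (cap i * (2 * Real.log (cap i))) * fac A D b l δ ρ i := by
        apply mul_le_mul_of_nonneg_right _ hf0
        apply mul_le_mul_of_nonneg_left _ hC0
        apply mul_le_mul_of_nonneg_left _ (by positivity)
        linarith
    _ = (2 * C * fac A D b l δ ρ i) * (cap i * Real.log (cap i)) := by ring
    _ < ε * (cap i * Real.log (cap i)) := by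
        apply mul_lt_mul_of_pos_right _ hpos
        rw [lt_div_iff₀ (by positivity)] at hi1
        nlinarith

/-- **Stage 2, all lengths.** -/
theorem fastAlways_of_pipe {A B : MTM} (hA : AlmostLinear A) (h : PipeStepDense A B) :
    FastAlways B := by
  obtain ⟨cap, D, b, l, δ, ρ, hF, hb, hl, hδ, hρ, ⟨Q, hQ⟩, hcost⟩ := h
  obtain ⟨C, hC0, hC⟩ := hcost.le
  have hfac := tendsto_fac hA hF.top hb hl hδ hρ
  intro ε hε
  have hQ1 : 1 ≤ Q := by
    by_contra hcon
    have : Q = 0 := by omega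
    have h0 := hQ 0
    rw [this, Nat.zero_mul] at h0
    have := hF.mono 0
    omega
  have hQR : (1 : ℝ) ≤ Q := by exact_mod_cast hQ1
  have hlQ := Real.log_nonneg hQR
  set C' : ℝ := C * Q * (2 + Real.log Q) with hC'
  have hC'0 : 0 ≤ C' := by positivity
  have h1 : ∀ᶠ i in atTop, fac A D b l δ ρ i < ε / (C' + 1) :=
    hfac.eventually (gt_mem_nhds (by positivity))
  obtain ⟨i0, hi0⟩ := eventually_atTop.mp h1
  refine ⟨cap (i0 + 1) + 3, fun n hn => ?_⟩
  obtain ⟨i, hi1, hi2⟩ := hF.exists_index n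
  have hii : i0 + 1 < i := by
    by_contra hcon
    have := hF.strictMono.monotone (show i ≤ i0 + 1 by omega)
    omega
  obtain ⟨j, rfl⟩ : ∃ j, i = j + 1 := ⟨i - 1, by omega⟩
  have hj : cap j < n := by
    rcases hi1 with h | h
    · omega
    · simpa using h
  have h2 := hC (j + 1) n hi1 hi2 (by omega)
  have hn3 : (3 : ℝ) ≤ n := by
    have : 3 ≤ n := by omega
    exact_mod_cast this
  have hlog : 1 ≤ Real.log n := by
    rw [Real.le_log_iff_exp_le (by linarith)]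
    have := Real.exp_one_lt_d9
    linarith
  have hcapn : (cap (j + 1) : ℝ) ≤ Q * n := by
    have h3 : cap (j + 1) ≤ Q * n := (hQ j).trans (Nat.mul_le_mul_left _ hj.le)
    exact_mod_cast h3
  have hcap1 : (1 : ℝ) ≤ cap (j + 1) := by
    have : 1 ≤ cap (j + 1) := by omega
    exact_mod_cast this
  have hlogc : Real.log (cap (j + 1)) ≤ Real.log Q + Real.log n := by
    rw [← Real.log_mul (by linarith) (by linarith)]
    exact Real.log_le_log (by linarith) hcapn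
  have hlc0 := Real.log_nonneg hcap1
  have hf0 := fac_nonneg A D b l δ ρ (j + 1)
  have hpos : 0 < (n : ℝ) * Real.log n := by positivity
  have hle : (cap (j + 1) : ℝ) * (1 + Real.log (cap (j + 1))) ≤
      Q * (2 + Real.log Q) * (n * Real.log n) := by
    calc (cap (j + 1) : ℝ) * (1 + Real.log (cap (j + 1)))
        ≤ (Q * n) * (1 + (Real.log Q + Real.log n)) :=
          mul_le_mul hcapn (by linarith) (by linarith) (by positivity)
      _ ≤ (Q * n) * ((2 + Real.log Q) * Real.log n) := by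
          apply mul_le_mul_of_nonneg_left _ (by positivity)
          nlinarith
      _ = _ := by ring
  have hfi := hi0 (j + 1) (by omega)
  calc (mulTime B n : ℝ) ≤ C * (cap (j + 1) * (1 + Real.log (cap (j + 1)))) *
        fac A D b l δ ρ (j + 1) := h2
    _ ≤ C * (Q * (2 + Real.log Q) * (n * Real.log n)) * fac A D b l δ ρ (j + 1) :=
        mul_le_mul_of_nonneg_right (mul_le_mul_of_nonneg_left hle hC0) hf0
    _ = (C' * fac A D b l δ ρ (j + 1)) * (n * Real.log n) := by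
        rw [hC']
        ring
    _ < ε * (n * Real.log n) := by
        apply mul_lt_mul_of_pos_right _ hpos
        rw [lt_div_iff₀ (by positivity)] at hfi
        nlinarith

theorem PipeStepDense.pipeStep {A B : MTM} (h : PipeStepDense A B) : PipeStep A B := by
  obtain ⟨cap, D, b, l, δ, ρ, hF, hb, hl, hδ, hρ, -, hcost⟩ := h
  exact ⟨cap, D, b, l, δ, ρ, hF, hb, hl, hδ, hρ, hcost⟩

/-- **The bootstrap.** -/
theorem exists_fastOften {S : MTM} (hS : Multiplies S) (hS' : PolyTimeMul S)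
    (h : ∀ A, Multiplies A → ∃ B, Multiplies B ∧ PipeStep A B) :
    ∃ A, Multiplies A ∧ FastOften A := by
  obtain ⟨A1, hA1, h1⟩ := h S hS
  obtain ⟨A2, hA2, h2⟩ := h A1 hA1
  exact ⟨A2, hA2, fastOften_of_pipe (almostLinear_of_pipe hS' h1) h2⟩

/-- **The bootstrap, all lengths.** -/
theorem exists_fastAlways {S : MTM} (hS : Multiplies S) (hS' : PolyTimeMul S)
    (h : ∀ A, Multiplies A → ∃ B, Multiplies B ∧ PipeStepDense A B) :
    ∃ A, Multiplies A ∧ FastAlways A := by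
  obtain ⟨A1, hA1, h1⟩ := h S hS
  obtain ⟨A2, hA2, h2⟩ := h A1 hA1
  exact ⟨A2, hA2, fastAlways_of_pipe (almostLinear_of_pipe hS' h1.pipeStep) h2⟩

/-- The negation of Q1. -/
theorem not_q1 {A : MTM} (hA : Multiplies A) (h : FastOften A) :
    ¬ ∀ A, Multiplies A → MulHard A :=
  fun h' => not_mulHard_of_fastOften h (h' A hA)

end Vale.Agent.P338.R3.H772
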