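import Vale.Agent.P338.R3.H772.TopBin
import Vale.Agent.P338.R2.H898.Frame

/-!
P338-D, TOP: from a core program on files to a Turing machine that multiplies.
-/

namespace Vale.Agent.P338.R3.H772

open Vale.Agent.P338.R2.H898
open Vale.Agent.P338.R2.H235 (op1 run_op1 push run_push cpy run_cpy popAll run_popAll clr run_clr
  nop run_nop SProg callProg)
open Vale.Agent.P338.R2.H968 (padF run_padF)
open Vale.Agent.Lib.PolyTime (Enc PT pb esize)
open Function (update)

/-- The files of TOP. -/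
inductive TN
  | inp | u1 | u2 | v | nb | cb | out
  deriving DecidableEq

instance : Finite TN := by
  let f : TN → Fin 7 := fun
    | .inp => 0
    | .u1 => 1
    | .u2 => 2
    | .v => 3
    | .nb => 4
    | .cb => 5
    | .out => 6
  refine Finite.of_injective f ?_
  intro a b h
  cases a <;> cases b <;> simp_all [f]

/-- All files. -/
abbrev TF (W : ℕ) (F : Type) : Type := TN ⊕ (Fin W ⊕ F)

variable {M F α : Type} {W : ℕ}

/-- The contents of the files. -/
def tst (W : ℕ) (i u1 u2 v nb cb o : Zip α) (c : F → Zip α) : TF W F → Zip α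
  | .inl .inp => i
  | .inl .u1 => u1
  | .inl .u2 => u2
  | .inl .v => v
  | .inl .nb => nb
  | .inl .cb => cb
  | .inl .out => o
  | .inr (.inl _) => ⟨[], []⟩
  | .inr (.inr f) => c f

/-- A file of the core program. -/
abbrev co (f : F) : TF W F := .inr (.inr f)

/-- A scratch file. -/
def scr (W : ℕ) (F : Type) (i : ℕ) : TF W F :=
  if h : i < W then .inr (.inl ⟨i, h⟩) else .inl .inp

theorem scr_inj : ∀ i < W, ∀ j < W, scr W F i = scr W F j → i = j := by
  intro i hi j hj h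
  simpa [scr, hi, hj] using h

theorem scr_ne_inl {i : ℕ} (hi : i < W) (k : TN) : scr W F i ≠ .inl k := by
  simp [scr, hi]

theorem scr_ne_co {i : ℕ} (hi : i < W) (f : F) : scr W F i ≠ co f := by
  simp [scr, hi, co]

section upd

variable [DecidableEq F] {i u1 u2 v nb cb o x : Zip α} {c : F → Zip α}

theorem upd_inp : update (tst W i u1 u2 v nb cb o c) (.inl .inp) x =
    tst W x u1 u2 v nb cb o c := by
  funext f
  rcases f with k | k | k
  · cases k <;> simp [tst, Function.update]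
  · simp [tst]
  · simp [tst]

theorem upd_u1 : update (tst W i u1 u2 v nb cb o c) (.inl .u1) x =
    tst W i x u2 v nb cb o c := by
  funext f
  rcases f with k | k | k
  · cases k <;> simp [tst, Function.update]
  · simp [tst]
  · simp [tst]

theorem upd_u2 : update (tst W i u1 u2 v nb cb o c) (.inl .u2) x =
    tst W i u1 x v nb cb o c := by
  funext f
  rcases f with k | k | k
  · cases k <;> simp [tst, Function.update]
  · simp [tst]
  · simp [tst]

theorem upd_v : update (tst W i u1 u2 v nb cb o c) (.inl .v) x =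
    tst W i u1 u2 x nb cb o c := by
  funext f
  rcases f with k | k | k
  · cases k <;> simp [tst, Function.update]
  · simp [tst]
  · simp [tst]

theorem upd_nb : update (tst W i u1 u2 v nb cb o c) (.inl .nb) x =
    tst W i u1 u2 v x cb o c := by
  funext f
  rcases f with k | k | k
  · cases k <;> simp [tst, Function.update]
  · simp [tst]
  · simp [tst]

theorem upd_cb : update (tst W i u1 u2 v nb cb o c) (.inl .cb) x =
    tst W i u1 u2 v nb x o c := by
  funext f
  rcases f with k | k | k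
  · cases k <;> simp [tst, Function.update]
  · simp [tst]
  · simp [tst]

theorem upd_out : update (tst W i u1 u2 v nb cb o c) (.inl .out) x =
    tst W i u1 u2 v nb cb x c := by
  funext f
  rcases f with k | k | k
  · cases k <;> simp [tst, Function.update]
  · simp [tst]
  · simp [tst]

theorem upd_co {f : F} : update (tst W i u1 u2 v nb cb o c) (co f) x =
    tst W i u1 u2 v nb cb o (update c f x) := by
  funext g
  rcases g with k | k | k
  · cases k <;> simp [tst, co]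
  · simp [tst, co]
  · by_cases hk : k = f
    · subst hk
      simp [tst, co]
    · simp [tst, co, hk]

end upd

theorem tst_co {i u1 u2 v nb cb o : Zip α} {c : F → Zip α} (f : F) :
    tst W i u1 u2 v nb cb o c (co f) = c f := rfl

theorem tst_scr {i u1 u2 v nb cb o : Zip α} {c : F → Zip α} {j : ℕ} (hj : j < W) :
    tst W i u1 u2 v nb cb o c (scr W F j) = ⟨[], []⟩ := by
  simp [scr, hj, tst]

theorem ext_tst {i u1 u2 v nb cb o : Zip α} {c c' : F → Zip α} :
    Function.extend (co (W := W)) c' (tst W i u1 u2 v nb cb o c) =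
      tst W i u1 u2 v nb cb o c' := by
  have hinj : Function.Injective (co (W := W) (F := F)) := fun a b h => by simpa [co] using h
  funext g
  rcases g with k | k | k
  · rw [Function.extend_apply' _ _ _ (by rintro ⟨a, ha⟩; simp [co] at ha)]
    cases k <;> rfl
  · rw [Function.extend_apply' _ _ _ (by rintro ⟨a, ha⟩; simp [co] at ha)]
    rfl
  · exact hinj.extend_apply _ _ _

variable [DecidableEq F] {d : α}

theorem run_core {m m' : M} {core : Prog M F α} {i u1 u2 v nb cb o : Zip α} {c c' : F → Zip α}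
    {t : ℕ} (h : Prog.Run d core ⟨m, c⟩ t ⟨m', c'⟩) :
    Prog.Run d (core.map (Lens.idL M) (co (W := W)))
      ⟨m, tst W i u1 u2 v nb cb o c⟩ t ⟨m', tst W i u1 u2 v nb cb o c'⟩ := by
  have hinj : Function.Injective (co (W := W) (F := F)) := fun a b h => by simpa [co] using h
  have h1 := Prog.Run.map (L := Lens.idL M) hinj h (S := ⟨m, tst W i u1 u2 v nb cb o c⟩) rfl
  have e : Store.put (Lens.idL M) (co (W := W)) ⟨m, tst W i u1 u2 v nb cb o c⟩ ⟨m', c'⟩ =
      ⟨m', tst W i u1 u2 v nb cb o c'⟩ := by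
    unfold Store.put
    rw [ext_tst]
    rfl
  rwa [e] at h1

/-- Parsing of the input. -/
noncomputable def topIn (u h : α) (bf bt : α) (fx fy : F) : Prog M (TF W F) α :=
  .seq (splitP h u (.inl .inp) (co fy) (.inl .u1) (.inl .u2)) (.seq (op1 (.inl .inp) .trunc)
    (.seq (popAll (.inl .inp) (co fx)) (.seq (op1 (co fx) .rew) (.seq (op1 (co fy) .rew)
      (.seq (op1 (.inl .u1) .rew) (.seq (op1 (.inl .u2) .rew)
        (.seq (toBin u bf bt (.inl .u1) (.inl .v) (.inl .nb)) (op1 (.inl .nb) .rew))))))))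

theorem run_topIn {u h : α} {bit : Bool → α} (hh : ∀ b, bit b ≠ h) {fx fy : F} (hxy : fx ≠ fy)
    (m : M) (x y : List Bool) (n : ℕ) (hy : y.length = n) (hx : x.length = n) :
    Prog.Run d (topIn u h (bit false) (bit true) fx fy : Prog M (TF W F) α)
      ⟨m, tst W ⟨(y.map bit).reverse ++ h :: (x.map bit).reverse, []⟩ ⟨[], []⟩ ⟨[], []⟩ ⟨[], []⟩
        ⟨[], []⟩ ⟨[], []⟩ ⟨[], []⟩ (fun _ => ⟨[], []⟩)⟩ (64 * n + 12)
      ⟨m, tst W ⟨[], []⟩ ⟨[], []⟩ ⟨[], List.replicate n u⟩ ⟨[], []⟩ ⟨[], n.bits.map bit⟩ ⟨[], []⟩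
        ⟨[], []⟩ (update (update (fun _ => ⟨[], []⟩) fy ⟨[], y.reverse.map bit⟩) fx
          ⟨[], x.reverse.map bit⟩)⟩ := by
  have r1 := run_split (d := d) (h := h) (u := u) (g := (.inl .inp : TF W F)) (f := co fy)
    (u1 := .inl .u1) (u2 := .inl .u2) (by simp [co]) m ((y.map bit).reverse)
    ((x.map bit).reverse) (by
      intro a ha
      simp only [List.mem_reverse, List.mem_map] at ha
      obtain ⟨b, -, rfl⟩ := ha
      exact hh b) [] [] []
    (tst W ⟨(y.map bit).reverse ++ h :: (x.map bit).reverse, []⟩ ⟨[], []⟩ ⟨[], []⟩ ⟨[], []⟩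
        ⟨[], []⟩ ⟨[], []⟩ ⟨[], []⟩ (fun _ => ⟨[], []⟩)) rfl rfl rfl rfl
  simp only [splitZ, upd_co, upd_u1, upd_u2, upd_inp, List.length_reverse, List.length_map, hy,
    List.append_nil, List.reverse_reverse] at r1
  set c1 : F → Zip α := update (fun _ => ⟨[], []⟩) fy ⟨y.map bit, []⟩ with hc1
  have r2 := run_op1 (d := d) (.inl .inp : TF W F) .trunc m (tst W ⟨(x.map bit).reverse, [h]⟩
    ⟨List.replicate n u, []⟩ ⟨List.replicate n u, []⟩ ⟨[], []⟩ ⟨[], []⟩ ⟨[], []⟩ ⟨[], []⟩ c1)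
  rw [upd_inp] at r2
  have e2 : Op.trunc.app d (tst W ⟨(x.map bit).reverse, [h]⟩ ⟨List.replicate n u, []⟩
      ⟨List.replicate n u, []⟩ ⟨[], []⟩ ⟨[], []⟩ ⟨[], []⟩ ⟨[], []⟩ c1 (.inl .inp : TF W F)) =
      ⟨(x.map bit).reverse, []⟩ := rfl
  rw [e2] at r2
  have r3 := run_popAll (d := d) (g := (.inl .inp : TF W F)) (f := co fx) (by simp [co]) m
    ((x.map bit).reverse) [] (tst W ⟨(x.map bit).reverse, []⟩
    ⟨List.replicate n u, []⟩ ⟨List.replicate n u, []⟩ ⟨[], []⟩ ⟨[], []⟩ ⟨[], []⟩ ⟨[], []⟩ c1) rfl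
    (by simp [tst, hc1, hxy])
  simp only [upd_co, upd_inp, List.length_reverse, List.length_map, hx,
    List.append_nil, List.reverse_reverse] at r3
  set c2 : F → Zip α := update c1 fx ⟨x.map bit, []⟩ with hc2
  have r4 := run_op1 (d := d) (co fx : TF W F) .rew m (tst W ⟨[], []⟩
    ⟨List.replicate n u, []⟩ ⟨List.replicate n u, []⟩ ⟨[], []⟩ ⟨[], []⟩ ⟨[], []⟩ ⟨[], []⟩ c2)
  have e4 : Op.rew.app d (c2 fx) = ⟨[], x.reverse.map bit⟩ := by
    simp [hc2, Op.app]
  rw [upd_co, tst_co, e4] at r4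
  set c3 : F → Zip α := update c2 fx ⟨[], x.reverse.map bit⟩ with hc3
  have r5 := run_op1 (d := d) (co fy : TF W F) .rew m (tst W ⟨[], []⟩
    ⟨List.replicate n u, []⟩ ⟨List.replicate n u, []⟩ ⟨[], []⟩ ⟨[], []⟩ ⟨[], []⟩ ⟨[], []⟩ c3)
  have e5 : Op.rew.app d (c3 fy) = ⟨[], y.reverse.map bit⟩ := by
    simp [hc3, hc2, hc1, hxy.symm, Op.app]
  rw [upd_co, tst_co, e5] at r5
  set c4 : F → Zip α := update c3 fy ⟨[], y.reverse.map bit⟩ with hc4
  have r6 := run_op1 (d := d) (.inl .u1 : TF W F) .rew m (tst W ⟨[], []⟩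
    ⟨List.replicate n u, []⟩ ⟨List.replicate n u, []⟩ ⟨[], []⟩ ⟨[], []⟩ ⟨[], []⟩ ⟨[], []⟩ c4)
  have e6 : Op.rew.app d (tst W ⟨[], []⟩ ⟨List.replicate n u, []⟩ ⟨List.replicate n u, []⟩ ⟨[], []⟩
      ⟨[], []⟩ ⟨[], []⟩ ⟨[], []⟩ c4 (.inl .u1 : TF W F)) = ⟨[], List.replicate n u⟩ := by
    simp [tst, Op.app]
  rw [upd_u1, e6] at r6
  have r7 := run_op1 (d := d) (.inl .u2 : TF W F) .rew m (tst W ⟨[], []⟩
    ⟨[], List.replicate n u⟩ ⟨List.replicate n u, []⟩ ⟨[], []⟩ ⟨[], []⟩ ⟨[], []⟩ ⟨[], []⟩ c4)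
  have e7 : Op.rew.app d (tst W ⟨[], []⟩ ⟨[], List.replicate n u⟩ ⟨List.replicate n u, []⟩ ⟨[], []⟩
      ⟨[], []⟩ ⟨[], []⟩ ⟨[], []⟩ c4 (.inl .u2 : TF W F)) = ⟨[], List.replicate n u⟩ := by
    simp [tst, Op.app]
  rw [upd_u2, e7] at r7
  have r8 := run_toBin (d := d) (u := u) (bit := bit) (a := (.inl .u1 : TF W F)) (b := .inl .v)
    (n := .inl .nb) (by simp) (by simp) (by simp) m n [] (tst W ⟨[], []⟩
    ⟨[], List.replicate n u⟩ ⟨[], List.replicate n u⟩ ⟨[], []⟩ ⟨[], []⟩ ⟨[], []⟩ ⟨[], []⟩ c4)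
    rfl rfl rfl
  simp only [halfZ, upd_u1, upd_v, upd_nb, List.append_nil] at r8
  have r9 := run_op1 (d := d) (.inl .nb : TF W F) .rew m (tst W ⟨[], []⟩
    ⟨[], []⟩ ⟨[], List.replicate n u⟩ ⟨[], []⟩ ⟨(n.bits.map bit).reverse, []⟩ ⟨[], []⟩ ⟨[], []⟩ c4)
  have e9 : Op.rew.app d (tst W ⟨[], []⟩
      ⟨[], []⟩ ⟨[], List.replicate n u⟩ ⟨[], []⟩ ⟨(n.bits.map bit).reverse, []⟩ ⟨[], []⟩ ⟨[], []⟩
      c4 (.inl .nb : TF W F)) = ⟨[], n.bits.map bit⟩ := by
    simp [tst, Op.app]
  rw [upd_nb, e9] at r9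
  have ec : c4 = update (update (fun _ => ⟨[], []⟩) fy ⟨[], y.reverse.map bit⟩) fx
      ⟨[], x.reverse.map bit⟩ := by
    funext f
    rcases eq_or_ne f fy with rfl | h1
    · simp [hc4, hxy.symm]
    · rcases eq_or_ne f fx with rfl | h2
      · simp [hc4, h1, hc3]
      · simp [hc4, h1, hc3, h2, hc2, hc1]
  rw [← ec]
  refine Prog.Run.mono (r1.seq (r2.seq (r3.seq (r4.seq (r5.seq (r6.seq (r7.seq (r8.seq r9)))))))) ?_
  omega

theorem lval_append (x y : List Bool) : lval (x ++ y) = lval x + 2 ^ x.length * lval y := by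
  induction x with
  | nil => simp [lval]
  | cons b x ih =>
    simp only [List.cons_append, lval, ih, List.length_cons, pow_succ]
    ring

theorem lval_replicate_false (k : ℕ) : lval (List.replicate k false) = 0 := by
  induction k with
  | zero => rfl
  | succ k ih => simp [List.replicate_succ, lval, ih]

theorem foldl_reverse_eq (x : List Bool) :
    x.reverse.foldl (fun a b => 2 * a + b.toNat) 0 = lval x := by
  induction x with
  | nil => rfl
  | cons b x ih =>
    rw [List.reverse_cons, List.foldl_append, ih]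
    simp [lval]
    omega

theorem val_eq_lval (x : List Bool) : val x = lval x.reverse := by
  rw [← foldl_reverse_eq, List.reverse_reverse]
  rfl

theorem lval_bits (n : ℕ) : lval n.bits = n := by
  induction n using Nat.strong_induction_on with
  | _ n ih =>
    rcases Nat.eq_zero_or_pos n with rfl | hn
    · rfl
    · rw [bits_succ_div hn, lval, ih (n / 2) (by omega)]
      rcases Nat.mod_two_eq_zero_or_one n with h | h <;> simp [h] <;> omega

theorem lval_lt (x : List Bool) : lval x < 2 ^ x.length := by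
  induction x with
  | nil => simp [lval]
  | cons b x ih =>
    rw [lval, List.length_cons, pow_succ]
    cases b <;> simp <;> omega

theorem length_bits_le (n : ℕ) : n.bits.length ≤ n := by
  rw [Nat.size_eq_bits_len]
  exact Nat.size_le.mpr n.lt_two_pow_self

/-- The parameters, the capacity in unary, padding. -/
noncomputable def topMid (u : α) (bit : Bool → α) (fx fy fp : F) (p1 p2 : SProg) :
    Prog M (TF W F) α :=
  .seq (callProg bit p1 (.inl .nb) (co fp) (scr W F))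
    (.seq (callProg bit p2 (.inl .nb) (.inl .cb) (scr W F))
    (.seq (toEnd (.inl .cb)) (.seq (fromBin u (bit true) (.inl .v) (.inl .u1) (.inl .cb))
      (.seq (padF (bit false) (co fx) (.inl .v)) (padF (bit false) (co fy) (.inl .v))))))

theorem run_topMid {u : α} {bit : Bool → α} (hb : bit true ≠ bit false) {fx fy fp : F}
    (hxy : fx ≠ fy) (hxp : fx ≠ fp) (hyp : fy ≠ fp) {P : Type} [Enc P] {par : ℕ → P}
    {cap : P → ℕ} {p1 p2 : SProg} {t1 t2 : ℕ → ℕ} (m : M)
    (h1 : ∀ (z : TF W F → Zip α) (a : ℕ), z (.inl .nb) = ⟨[], a.bits.map bit⟩ →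
      z (co fp) = ⟨[], []⟩ → (∀ i < W, z (scr W F i) = ⟨[], []⟩) →
      Prog.Run d (callProg bit p1 (.inl .nb) (co fp) (scr W F) : Prog M (TF W F) α) ⟨m, z⟩
        (t1 a) ⟨m, update z (co fp) ⟨[], (Enc.enc (par a)).map bit⟩⟩)
    (h2 : ∀ (z : TF W F → Zip α) (a : ℕ), z (.inl .nb) = ⟨[], a.bits.map bit⟩ →
      z (.inl .cb) = ⟨[], []⟩ → (∀ i < W, z (scr W F i) = ⟨[], []⟩) →
      Prog.Run d (callProg bit p2 (.inl .nb) (.inl .cb) (scr W F) : Prog M (TF W F) α) ⟨m, z⟩
        (t2 a) ⟨m, update z (.inl .cb) ⟨[], ((cap (par a)).bits).map bit⟩⟩)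
    (x y : List Bool) (n : ℕ) (hx : x.length = n) (hy : y.length = n) (hn : n ≤ cap (par n)) :
    Prog.Run d (topMid u bit fx fy fp p1 p2 : Prog M (TF W F) α)
      ⟨m, tst W ⟨[], []⟩ ⟨[], []⟩ ⟨[], List.replicate n u⟩ ⟨[], []⟩ ⟨[], n.bits.map bit⟩ ⟨[], []⟩
        ⟨[], []⟩ (update (update (fun _ => ⟨[], []⟩) fy ⟨[], y.map bit⟩) fx ⟨[], x.map bit⟩)⟩
      (t1 n + t2 n + 52 * cap (par n) + 9)
      ⟨m, tst W ⟨[], []⟩ ⟨[], []⟩ ⟨[], List.replicate n u⟩ ⟨[], List.replicate (cap (par n)) u⟩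
        ⟨[], n.bits.map bit⟩ ⟨[], []⟩ ⟨[], []⟩
        (coreIn bit fx fy fp (x ++ List.replicate (cap (par n) - n) false)
          (y ++ List.replicate (cap (par n) - n) false) (Enc.enc (par n)))⟩ := by
  set N := cap (par n) with hN
  set c0 : F → Zip α := update (update (fun _ => ⟨[], []⟩) fy ⟨[], y.map bit⟩) fx
    ⟨[], x.map bit⟩ with hc0
  have r1 := h1 (tst W ⟨[], []⟩ ⟨[], []⟩ ⟨[], List.replicate n u⟩ ⟨[], []⟩ ⟨[], n.bits.map bit⟩
    ⟨[], []⟩ ⟨[], []⟩ c0) n rfl (by simp [tst, hc0, hxp.symm, hyp.symm]) (fun i hi => tst_scr hi)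
  rw [upd_co] at r1
  set c1 : F → Zip α := update c0 fp ⟨[], (Enc.enc (par n)).map bit⟩ with hc1
  have r2 := h2 (tst W ⟨[], []⟩ ⟨[], []⟩ ⟨[], List.replicate n u⟩ ⟨[], []⟩ ⟨[], n.bits.map bit⟩
    ⟨[], []⟩ ⟨[], []⟩ c1) n rfl rfl (fun i hi => tst_scr hi)
  rw [upd_cb, ← hN] at r2
  have r3 := run_toEnd (d := d) (g := (.inl .cb : TF W F)) m (N.bits.map bit) [] (tst W ⟨[], []⟩
    ⟨[], []⟩ ⟨[], List.replicate n u⟩ ⟨[], []⟩ ⟨[], n.bits.map bit⟩ ⟨[], N.bits.map bit⟩
    ⟨[], []⟩ c1) rfl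
  rw [upd_cb, List.append_nil, ← List.map_reverse] at r3
  have r4 := run_fromBin (d := d) (u := u) hb (a := (.inl .v : TF W F)) (b := .inl .u1)
    (c := .inl .cb) (by simp) (by simp) (by simp) m N.bits.reverse 0 (tst W ⟨[], []⟩
    ⟨[], []⟩ ⟨[], List.replicate n u⟩ ⟨[], []⟩ ⟨[], n.bits.map bit⟩ ⟨N.bits.reverse.map bit, []⟩
    ⟨[], []⟩ c1) rfl rfl rfl
  simp only [halfZ, upd_v, upd_u1, upd_cb, foldl_reverse_eq, lval_bits,
    List.length_reverse] at r4
  have r5 := run_padF (d := d) (o := bit false) (f := (co fx : TF W F)) (r := .inl .v)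
    (by simp) (x := x.map bit) (R := List.replicate N u) (m := m) (z := tst W ⟨[], []⟩
    ⟨[], []⟩ ⟨[], List.replicate n u⟩ ⟨[], List.replicate N u⟩ ⟨[], n.bits.map bit⟩ ⟨[], []⟩
    ⟨[], []⟩ c1) (by simpa [hx] using hn) (by simp [tst, hc1, hxp, hc0]) rfl
  simp only [upd_co, List.length_replicate, List.length_map, hx] at r5
  set c2 : F → Zip α := update c1 fx
    ⟨[], x.map bit ++ List.replicate (N - n) (bit false)⟩ with hc2
  have r6 := run_padF (d := d) (o := bit false) (f := (co fy : TF W F)) (r := .inl .v)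
    (by simp) (x := y.map bit) (R := List.replicate N u) (m := m) (z := tst W ⟨[], []⟩
    ⟨[], []⟩ ⟨[], List.replicate n u⟩ ⟨[], List.replicate N u⟩ ⟨[], n.bits.map bit⟩ ⟨[], []⟩
    ⟨[], []⟩ c2) (by simpa [hy] using hn) (by simp [tst, hc2, hxy.symm, hc1, hyp, hc0]) rfl
  simp only [upd_co, List.length_replicate, List.length_map, hy] at r6
  have ec : update c2 fy ⟨[], y.map bit ++ List.replicate (N - n) (bit false)⟩ =
      coreIn bit fx fy fp (x ++ List.replicate (N - n) false)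
          (y ++ List.replicate (N - n) false) (Enc.enc (par n)) := by
    funext f
    unfold coreIn
    rcases eq_or_ne f fx with rfl | e1
    · simp [hxy, hc2]
    · rcases eq_or_ne f fy with rfl | e2
      · simp [e1]
      · rcases eq_or_ne f fp with rfl | e3
        · simp [e1, e2, hc2, hc1]
        · simp [e1, e2, e3, hc2, hc1, hc0]
  rw [ec] at r6
  have hlen := length_bits_le N
  refine Prog.Run.mono (r1.seq (r2.seq (r3.seq (r4.seq (r5.seq r6))))) ?_
  rw [List.length_map]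
  omega

/-- Cutting and reversing the result. -/
def topOut (fr : F) : Prog M (TF W F) α :=
  .seq (skip2 (.inl .u2) (co fr)) (.seq (op1 (co fr) .trunc) (popAll (co fr) (.inl .out)))

theorem run_topOut {u : α} {bit : Bool → α} {fr : F} (m : M) (z : List Bool) (n : ℕ)
    (hz : 2 * n ≤ z.length) {i u1 v nb cb : Zip α} {c : F → Zip α}
    (hc : c fr = ⟨[], z.map bit⟩) :
    ∃ s' : Store M (TF W F) α, Prog.Run d (topOut fr : Prog M (TF W F) α)
      ⟨m, tst W i u1 ⟨[], List.replicate n u⟩ v nb cb ⟨[], []⟩ c⟩ (14 * n + 4) s' ∧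
      (s'.z (.inl .out)).full = ((z.take (2 * n)).reverse).map bit := by
  have r1 := run_skip2 (d := d) (u := u) (a := (.inl .u2 : TF W F)) (g := co fr) (by simp) m n []
    [] ((z.take (2 * n)).map bit) ((z.drop (2 * n)).map bit)
    (tst W i u1 ⟨[], List.replicate n u⟩ v nb cb ⟨[], []⟩ c) (by simpa using hz) rfl
    (by rw [tst_co, hc, ← List.map_append, List.take_append_drop])
  rw [upd_u2, upd_co, List.append_nil, List.append_nil] at r1
  set c1 : F → Zip α := update c fr ⟨((z.take (2 * n)).map bit).reverse,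
    (z.drop (2 * n)).map bit⟩ with hc1
  have r2 := run_op1 (d := d) (co fr : TF W F) .trunc m
    (tst W i u1 ⟨List.replicate n u, []⟩ v nb cb ⟨[], []⟩ c1)
  have e2 : Op.trunc.app d (c1 fr) = ⟨((z.take (2 * n)).map bit).reverse, []⟩ := by
    simp [hc1, Op.app]
  rw [upd_co, tst_co, e2] at r2
  set c2 : F → Zip α := update c1 fr ⟨((z.take (2 * n)).map bit).reverse, []⟩ with hc2
  have r3 := run_popAll (d := d) (g := (co fr : TF W F)) (f := .inl .out) (by simp) m
    (((z.take (2 * n)).map bit).reverse) []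
    (tst W i u1 ⟨List.replicate n u, []⟩ v nb cb ⟨[], []⟩ c2) (by simp [tst, hc2]) rfl
  rw [upd_out, upd_co, List.append_nil, List.reverse_reverse] at r3
  refine ⟨_, Prog.Run.mono (r1.seq (r2.seq r3)) ?_, ?_⟩
  · simp only [List.length_reverse, List.length_map, List.length_take]
    omega
  · simp [tst, Zip.full]

end Vale.Agent.P338.R3.H772
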