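import Vale.Agent.P338.R3.H772.TopRun

/-!
P338-D, TOP: unary and binary numbers on files.
-/

namespace Vale.Agent.P338.R3.H772

open Vale.Agent.P338.R2.H898
open Vale.Agent.P338.R2.H235 (op1 run_op1 push run_push cpy run_cpy popAll run_popAll clr run_clr
  nop run_nop)
open Function (update)

variable {M F α : Type} [DecidableEq F] {d : α}

/-! ### Halving -/

/-- Overwrite the last symbol. -/
def setLast (n : F) (b : α) : Prog M F α :=
  .seq (op1 n .left) (.seq (op1 n (.write b)) (op1 n .right))

theorem run_setLast {n : F} {a b : α} {l : List α} (m : M) (z : F → Zip α)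
    (h : z n = ⟨a :: l, []⟩) :
    Prog.Run d (setLast n b : Prog M F α) ⟨m, z⟩ 3 ⟨m, update z n ⟨b :: l, []⟩⟩ := by
  have h1 := run_op1 (d := d) n .left m z
  have e1 : Op.left.app d (z n) = ⟨l, [a]⟩ := by rw [h]; rfl
  rw [e1] at h1
  have h2 := run_op1 (d := d) n (.write b) m (update z n ⟨l, [a]⟩)
  have e2 : (Op.write b).app d (update z n ⟨l, [a]⟩ n) = ⟨l, [b]⟩ := by
    rw [Function.update_self]; rfl
  rw [e2, Function.update_idem] at h2
  have h3 := run_op1 (d := d) n .right m (update z n ⟨l, [b]⟩)
  have e3 : Op.right.app d (update z n ⟨l, [b]⟩ n) = ⟨b :: l, []⟩ := by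
    rw [Function.update_self]; rfl
  rw [e3, Function.update_idem] at h3
  exact h1.seq (h2.seq h3)

/-- Read the ruler `a`; append a mark to `b` for every second mark; if the length is odd, set the
last symbol of `n` to `bt`. -/
def halfP (u bt : α) (a b n : F) : Prog M F α :=
  .loop (fun _ x => (x a).isSome) (.seq (op1 a .right) (.ite (fun _ x => (x a).isSome)
    (.seq (op1 a .right) (push b u)) (setLast n bt)))

/-- The store after the halving. -/
def halfZ (z : F → Zip α) (a b n : F) (za zb zn : Zip α) : F → Zip α :=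
  update (update (update z a za) b zb) n zn

theorem halfZ_halfZ {z : F → Zip α} {a b n : F} (hab : a ≠ b) (han : a ≠ n) (hbn : b ≠ n)
    (za zb zn za' zb' zn' : Zip α) :
    halfZ (halfZ z a b n za zb zn) a b n za' zb' zn' = halfZ z a b n za' zb' zn' := by
  unfold halfZ
  funext x
  rcases eq_or_ne x n with rfl | h1
  · simp
  · rcases eq_or_ne x b with rfl | h2
    · simp [h1]
    · rcases eq_or_ne x a with rfl | h3
      · simp [h1, h2]
      · simp [h1, h2, h3]

theorem run_halfP {u bt : α} {a b n : F} (hab : a ≠ b) (han : a ≠ n) (hbn : b ≠ n) (m : M) :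
    ∀ (j : ℕ) (la lb ln : List α) (s : α) (z : F → Zip α), z a = ⟨la, List.replicate j u⟩ →
    z b = ⟨lb, []⟩ → z n = ⟨s :: ln, []⟩ →
    Prog.Run d (halfP u bt a b n : Prog M F α) ⟨m, z⟩ (6 * j + 1)
      ⟨m, halfZ z a b n ⟨List.replicate j u ++ la, []⟩ ⟨List.replicate (j / 2) u ++ lb, []⟩
        ⟨(if j % 2 = 1 then bt else s) :: ln, []⟩⟩
  | 0, la, lb, ln, s, z, ha, hb, hn => by
    have e : halfZ z a b n ⟨List.replicate 0 u ++ la, []⟩ ⟨List.replicate (0 / 2) u ++ lb, []⟩
        ⟨(if 0 % 2 = 1 then bt else s) :: ln, []⟩ = z := by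
      unfold halfZ
      rw [upd_same z (by simpa using ha), upd_same z (by simpa using hb),
        upd_same z (by simpa using hn)]
    rw [e]
    exact (Prog.Run.loopF (by simp [Store.reads, Zip.peek, ha])).mono (by omega)
  | 1, la, lb, ln, s, z, ha, hb, hn => by
    have r1 := run_op1 (d := d) a .right m z
    have e1 : Op.right.app d (z a) = ⟨u :: la, []⟩ := by rw [ha]; rfl
    rw [e1] at r1
    set z1 := update z a ⟨u :: la, []⟩ with hz1
    have r2 := run_setLast (d := d) (n := n) (a := s) (b := bt) (l := ln) m z1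
      (by simp [hz1, han.symm, hn])
    have r3 := Prog.Run.iteF (c := fun (_ : M) (x : F → Option α) => (x a).isSome)
      (p := .seq (op1 a .right) (push b u)) (s := ⟨m, z1⟩)
      (by simp [Store.reads, Zip.peek, hz1]) r2
    have e : update z1 n ⟨bt :: ln, []⟩ = halfZ z a b n ⟨List.replicate 1 u ++ la, []⟩
        ⟨List.replicate (1 / 2) u ++ lb, []⟩ ⟨(if 1 % 2 = 1 then bt else s) :: ln, []⟩ := by
      unfold halfZ
      funext x
      rcases eq_or_ne x n with rfl | h1
      · simp
      · rcases eq_or_ne x b with rfl | h2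
        · simp [h1, hz1, hab.symm, hb]
        · simp [h1, h2, hz1]
    rw [e] at r3
    have r4 : Prog.Run d (halfP u bt a b n : Prog M F α) ⟨m, halfZ z a b n
        ⟨List.replicate 1 u ++ la, []⟩ ⟨List.replicate (1 / 2) u ++ lb, []⟩
        ⟨(if 1 % 2 = 1 then bt else s) :: ln, []⟩⟩ 1 _ :=
      Prog.Run.loopF (by simp [Store.reads, Zip.peek, halfZ, han, hab])
    exact (Prog.Run.loopT (by simp [Store.reads, Zip.peek, ha]) (r1.seq r3) r4).mono (by omega)
  | j + 2, la, lb, ln, s, z, ha, hb, hn => by
    have r1 := run_op1 (d := d) a .right m z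
    have e1 : Op.right.app d (z a) = ⟨u :: la, List.replicate (j + 1) u⟩ := by rw [ha]; rfl
    rw [e1] at r1
    set z1 := update z a ⟨u :: la, List.replicate (j + 1) u⟩ with hz1
    have r2 := run_op1 (d := d) a .right m z1
    have e2 : Op.right.app d (z1 a) = ⟨u :: u :: la, List.replicate j u⟩ := by
      rw [hz1, Function.update_self]; rfl
    rw [e2] at r2
    set z2 := update z1 a ⟨u :: u :: la, List.replicate j u⟩ with hz2
    have r3 := run_push (d := d) b u m z2 lb (by simp [hz2, hz1, hab.symm, hb])
    set z3 := update z2 b ⟨u :: lb, []⟩ with hz3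
    have r4 := Prog.Run.iteT (c := fun (_ : M) (x : F → Option α) => (x a).isSome)
      (q := setLast n bt) (s := ⟨m, z1⟩)
      (by simp [Store.reads, Zip.peek, hz1, List.replicate_succ]) (r2.seq r3)
    have r5 := run_halfP (u := u) (bt := bt) hab han hbn m j (u :: u :: la) (u :: lb) ln s z3
      (by simp [hz3, hz2, hab]) (by simp [hz3])
      (by simp [hz3, hz2, hz1, hbn.symm, han.symm, hn])
    have e : halfZ z3 a b n ⟨List.replicate j u ++ u :: u :: la, []⟩
        ⟨List.replicate (j / 2) u ++ u :: lb, []⟩ ⟨(if j % 2 = 1 then bt else s) :: ln, []⟩ =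
        halfZ z a b n ⟨List.replicate (j + 2) u ++ la, []⟩
        ⟨List.replicate ((j + 2) / 2) u ++ lb, []⟩
        ⟨(if (j + 2) % 2 = 1 then bt else s) :: ln, []⟩ := by
      have e1 : ∀ (i : ℕ) (w : List α), List.replicate i u ++ u :: w =
          List.replicate (i + 1) u ++ w := by
        intro i w
        rw [List.replicate_succ']
        simp
      rw [e1, e1, e1]
      have e2 : (j + 2) / 2 = j / 2 + 1 := by omega
      have e3 : (j + 2) % 2 = j % 2 := by omega
      rw [e2, e3]
      unfold halfZ
      funext x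
      rcases eq_or_ne x n with rfl | h1
      · simp
      · rcases eq_or_ne x b with rfl | h2
        · simp [h1]
        · rcases eq_or_ne x a with rfl | h3
          · simp [h1, h2]
          · simp [h1, h2, h3, hz3, hz2, hz1]
    rw [e] at r5
    refine (Prog.Run.loopT (by simp [Store.reads, Zip.peek, ha, List.replicate_succ])
      (r1.seq r4) r5).mono (by omega)

/-! ### Unary to binary -/

/-- The binary representation of the length of the ruler `a` is appended to `n`; `a` is emptied. -/
def toBin (u bf bt : α) (a b n : F) : Prog M F α :=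
  .loop (fun _ x => (x a).isSome) (.seq (push n bf) (.seq (halfP u bt a b n)
    (.seq (clr a) (.seq (popAll b a) (op1 a .rew)))))

theorem bits_succ_div {v : ℕ} (hv : 0 < v) : v.bits = decide (v % 2 = 1) :: (v / 2).bits := by
  have h := Nat.bits_append_bit (v / 2) (decide (v % 2 = 1)) (by
    intro h0
    have : v = 1 := by omega
    subst this
    rfl)
  rw [← h]
  congr 1
  have e : Nat.bit (decide (v % 2 = 1)) (v / 2) = v := by
    rw [Nat.bit_val]
    rcases Nat.mod_two_eq_zero_or_one v with h1 | h1 <;> simp [h1] <;> omega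
  exact e.symm

theorem run_toBin {u : α} {bit : Bool → α} {a b n : F} (hab : a ≠ b) (han : a ≠ n) (hbn : b ≠ n)
    (m : M) : ∀ (v : ℕ) (ln : List α) (z : F → Zip α), z a = ⟨[], List.replicate v u⟩ →
    z b = ⟨[], []⟩ → z n = ⟨ln, []⟩ →
    Prog.Run d (toBin u (bit false) (bit true) a b n : Prog M F α) ⟨m, z⟩ (50 * v + 1)
      ⟨m, halfZ z a b n ⟨[], []⟩ ⟨[], []⟩ ⟨(v.bits.map bit).reverse ++ ln, []⟩⟩ := by
  intro v
  induction v using Nat.strong_induction_on with
  | _ v ih =>
    intro ln z ha hb hn
    rcases Nat.eq_zero_or_pos v with rfl | hv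
    · have e : halfZ z a b n ⟨[], []⟩ ⟨[], []⟩ ⟨((0 : ℕ).bits.map bit).reverse ++ ln, []⟩ = z := by
        unfold halfZ
        rw [upd_same z (by simpa using ha), upd_same z hb, upd_same z (by simpa using hn)]
      rw [e]
      exact (Prog.Run.loopF (by simp [Store.reads, Zip.peek, ha])).mono (by omega)
    · obtain ⟨v', hv'⟩ : ∃ v', v = v' + 1 := ⟨v - 1, by omega⟩
      have r1 := run_push (d := d) n (bit false) m z ln hn
      set z1 := update z n ⟨bit false :: ln, []⟩ with hz1
      have r2 := run_halfP (d := d) (u := u) (bt := bit true) hab han hbn m v [] [] ln (bit false)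
        z1 (by simp [hz1, han, ha]) (by simp [hz1, hbn, hb]) (by simp [hz1])
      set z2 := halfZ z1 a b n ⟨List.replicate v u ++ [], []⟩ ⟨List.replicate (v / 2) u ++ [], []⟩
        ⟨(if v % 2 = 1 then bit true else bit false) :: ln, []⟩ with hz2
      have r3 := run_clr (d := d) a m z2
      set z3 := update z2 a ⟨[], []⟩ with hz3
      have r4 := run_popAll (d := d) (g := b) (f := a) hab.symm m (List.replicate (v / 2) u) [] z3
        (by simp [hz3, hz2, halfZ, hab.symm, hbn]) (by simp [hz3])
      set z4 := update (update z3 a ⟨(List.replicate (v / 2) u).reverse ++ [], []⟩) b ⟨[], []⟩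
        with hz4
      have r5 := run_op1 (d := d) a .rew m z4
      have e5 : Op.rew.app d (z4 a) = ⟨[], List.replicate (v / 2) u⟩ := by
        have : z4 a = ⟨(List.replicate (v / 2) u).reverse ++ [], []⟩ := by simp [hz4, hab]
        rw [this]
        simp [Op.app]
      rw [e5] at r5
      set z5 := update z4 a ⟨[], List.replicate (v / 2) u⟩ with hz5
      have r6 := ih (v / 2) (by omega) ((if v % 2 = 1 then bit true else bit false) :: ln) z5
        (by simp [hz5]) (by simp [hz5, hz4, hab.symm])
        (by simp [hz5, hz4, hz3, hz2, halfZ, han.symm, hbn.symm])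
      have e : halfZ z5 a b n ⟨[], []⟩ ⟨[], []⟩ ⟨((v / 2).bits.map bit).reverse ++
          (if v % 2 = 1 then bit true else bit false) :: ln, []⟩ =
          halfZ z a b n ⟨[], []⟩ ⟨[], []⟩ ⟨(v.bits.map bit).reverse ++ ln, []⟩ := by
        have e1 : ((v / 2).bits.map bit).reverse ++ (if v % 2 = 1 then bit true else bit false) ::
            ln = (v.bits.map bit).reverse ++ ln := by
          rw [bits_succ_div hv]
          by_cases h2 : v % 2 = 1 <;> simp [h2]
        rw [e1]
        unfold halfZ
        funext x
        rcases eq_or_ne x n with rfl | h1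
        · simp
        · rcases eq_or_ne x b with rfl | h2
          · simp [h1]
          · rcases eq_or_ne x a with rfl | h3
            · simp [h1, h2]
            · simp [h1, h2, h3, hz5, hz4, hz3, hz2, halfZ, hz1]
      rw [e] at r6
      refine (Prog.Run.loopT (by simp [Store.reads, Zip.peek, ha, hv', List.replicate_succ])
        (r1.seq (r2.seq (r3.seq (r4.seq r5)))) r6).mono ?_
      simp only [List.length_replicate]
      omega

/-! ### Binary to unary -/

/-- Append two marks to `b` for every mark of `a`. -/
def dblP (u : α) (a b : F) : Prog M F α :=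
  .loop (fun _ x => (x a).isSome) (.seq (op1 a .right) (.seq (push b u) (push b u)))

theorem run_dblP {u : α} {a b : F} (hab : a ≠ b) (m : M) : ∀ (j : ℕ) (la lb : List α)
    (z : F → Zip α), z a = ⟨la, List.replicate j u⟩ → z b = ⟨lb, []⟩ →
    Prog.Run d (dblP u a b : Prog M F α) ⟨m, z⟩ (6 * j + 1)
      ⟨m, update (update z a ⟨List.replicate j u ++ la, []⟩) b
        ⟨List.replicate (2 * j) u ++ lb, []⟩⟩ := by
  intro j
  induction j with
  | zero =>
    intro la lb z ha hb
    have e : update (update z a ⟨List.replicate 0 u ++ la, []⟩) b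
        ⟨List.replicate (2 * 0) u ++ lb, []⟩ = z := by
      rw [upd_same z (by simpa using ha), upd_same z (by simpa using hb)]
    rw [e]
    exact (Prog.Run.loopF (by simp [Store.reads, Zip.peek, ha])).mono (by omega)
  | succ j ih =>
    intro la lb z ha hb
    have r1 := run_op1 (d := d) a .right m z
    have e1 : Op.right.app d (z a) = ⟨u :: la, List.replicate j u⟩ := by rw [ha]; rfl
    rw [e1] at r1
    set z1 := update z a ⟨u :: la, List.replicate j u⟩ with hz1
    have r2 := run_push (d := d) b u m z1 lb (by simp [hz1, hab.symm, hb])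
    set z2 := update z1 b ⟨u :: lb, []⟩ with hz2
    have r3 := run_push (d := d) b u m z2 (u :: lb) (by simp [hz2])
    set z3 := update z2 b ⟨u :: u :: lb, []⟩ with hz3
    have r4 := ih (u :: la) (u :: u :: lb) z3 (by simp [hz3, hz2, hz1, hab]) (by simp [hz3])
    have e : update (update z3 a ⟨List.replicate j u ++ u :: la, []⟩) b
        ⟨List.replicate (2 * j) u ++ u :: u :: lb, []⟩ =
        update (update z a ⟨List.replicate (j + 1) u ++ la, []⟩) b
        ⟨List.replicate (2 * (j + 1)) u ++ lb, []⟩ := by
      have e1 : ∀ (i : ℕ) (w : List α), List.replicate i u ++ u :: w =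
          List.replicate (i + 1) u ++ w := by
        intro i w
        rw [List.replicate_succ']
        simp
      rw [e1, e1, e1]
      have e2 : 2 * (j + 1) = 2 * j + 1 + 1 := by omega
      rw [e2]
      funext x
      rcases eq_or_ne x b with rfl | h1
      · simp
      · rcases eq_or_ne x a with rfl | h2
        · simp [h1]
        · simp [h1, h2, hz3, hz2, hz1]
    rw [e] at r4
    exact (Prog.Run.loopT (by simp [Store.reads, Zip.peek, ha, List.replicate_succ])
      (r1.seq (r2.seq r3)) r4).mono (by omega)

open Classical in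
/-- The file `c` (head at the right end, least significant bit at the left end) is popped; the ruler
`a` gets the corresponding length (after the old one as leading part); `b` is used. -/
noncomputable def fromBin (u bt : α) (a b c : F) : Prog M F α :=
  .seq (op1 c .left) (.loop (fun _ x => (x c).isSome) (.seq (dblP u a b)
    (.seq (.ite (fun _ x => decide (x c = some bt)) (push b u) nop)
      (.seq (clr a) (.seq (popAll b a) (.seq (op1 a .rew) (.seq (op1 c .trunc) (op1 c .left))))))))

theorem run_fromBin {u : α} {bit : Bool → α} (hb : bit true ≠ bit false) {a b c : F}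
    (hab : a ≠ b) (hac : a ≠ c) (hbc : b ≠ c) (m : M) : ∀ (l : List Bool) (v : ℕ)
    (z : F → Zip α), z a = ⟨[], List.replicate v u⟩ → z b = ⟨[], []⟩ → z c = ⟨l.map bit, []⟩ →
    Prog.Run d (fromBin u (bit true) a b c : Prog M F α) ⟨m, z⟩
      (16 * (l.foldl (fun x y => 2 * x + y.toNat) v) + 24 * l.length + 2)
      ⟨m, halfZ z a b c ⟨[], List.replicate (l.foldl (fun x y => 2 * x + y.toNat) v) u⟩ ⟨[], []⟩
        ⟨[], []⟩⟩ := by
  classical
  -- stronger cost bound
  have key : ∀ (l : List Bool) (v : ℕ) (z : F → Zip α), z a = ⟨[], List.replicate v u⟩ →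
      z b = ⟨[], []⟩ → z c = ⟨l.map bit, []⟩ → ∃ t,
      t + 16 * v ≤ 16 * (l.foldl (fun x y => 2 * x + y.toNat) v) + 24 * l.length + 2 ∧
      Prog.Run d (fromBin u (bit true) a b c : Prog M F α) ⟨m, z⟩ t
      ⟨m, halfZ z a b c ⟨[], List.replicate (l.foldl (fun x y => 2 * x + y.toNat) v) u⟩ ⟨[], []⟩
        ⟨[], []⟩⟩ := by
    intro l
    induction l with
    | nil =>
      intro v z ha hbz hc
      refine ⟨2, by simp only [List.foldl_nil, List.length_nil]; omega, ?_⟩
      have e : halfZ z a b c ⟨[], List.replicate (([] : List Bool).foldl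
          (fun x y => 2 * x + y.toNat) v) u⟩ ⟨[], []⟩ ⟨[], []⟩ = z := by
        unfold halfZ
        rw [upd_same z (by simpa using ha), upd_same z hbz, upd_same z (by simpa using hc)]
      rw [e]
      have r0 := run_op1 (d := d) c .left m z
      have e0 : Op.left.app d (z c) = z c := by rw [hc]; rfl
      rw [e0, Function.update_eq_self] at r0
      exact r0.seq (Prog.Run.loopF (by simp [Store.reads, Zip.peek, hc]))
    | cons y l ih =>
      intro v z ha hbz hc
      have r0 := run_op1 (d := d) c .left m z
      have e0 : Op.left.app d (z c) = ⟨l.map bit, [bit y]⟩ := by rw [hc]; rfl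
      rw [e0] at r0
      set z0 := update z c ⟨l.map bit, [bit y]⟩ with hz0
      have r1 := run_dblP (d := d) (u := u) hab m v [] [] z0 (by simp [hz0, hac, ha])
        (by simp [hz0, hbc, hbz])
      set z1 := update (update z0 a ⟨List.replicate v u ++ [], []⟩) b
        ⟨List.replicate (2 * v) u ++ [], []⟩ with hz1
      set z2 := update z1 b ⟨List.replicate (2 * v + y.toNat) u, []⟩ with hz2
      have r2 : Prog.Run d (.ite (fun _ x => decide (x c = some (bit true))) (push b u) nop :
          Prog M F α) ⟨m, z1⟩ 3 ⟨m, z2⟩ := by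
        cases y with
        | true =>
          have h := run_push (d := d) b u m z1 (List.replicate (2 * v) u) (by simp [hz1])
          have e : update z1 b ⟨u :: List.replicate (2 * v) u, []⟩ = z2 := by
            rw [hz2]
            rfl
          rw [e] at h
          exact Prog.Run.iteT (by simp [Store.reads, Zip.peek, hz1, hz0, hbc.symm, hac.symm]) h
        | false =>
          have h := run_nop (d := d) m z1
          have e : z2 = z1 := by
            rw [hz2]
            exact upd_same _ (by simp [hz1])
          rw [e]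
          exact (Prog.Run.iteF (by simp [Store.reads, Zip.peek, hz1, hz0, hbc.symm, hac.symm,
            hb.symm]) h).mono (by omega)
      have r3 := run_clr (d := d) a m z2
      set z3 := update z2 a ⟨[], []⟩ with hz3
      have r4 := run_popAll (d := d) (g := b) (f := a) hab.symm m
        (List.replicate (2 * v + y.toNat) u) [] z3 (by simp [hz3, hz2, hab.symm])
        (by simp [hz3])
      set z4 := update (update z3 a ⟨(List.replicate (2 * v + y.toNat) u).reverse ++ [], []⟩) b
        ⟨[], []⟩ with hz4
      have r5 := run_op1 (d := d) a .rew m z4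
      have e5 : Op.rew.app d (z4 a) = ⟨[], List.replicate (2 * v + y.toNat) u⟩ := by
        have : z4 a = ⟨(List.replicate (2 * v + y.toNat) u).reverse ++ [], []⟩ := by
          simp [hz4, hab]
        rw [this]
        simp [Op.app]
      rw [e5] at r5
      set z5 := update z4 a ⟨[], List.replicate (2 * v + y.toNat) u⟩ with hz5
      have r6 := run_op1 (d := d) c .trunc m z5
      have e6 : Op.trunc.app d (z5 c) = ⟨l.map bit, []⟩ := by
        have : z5 c = ⟨l.map bit, [bit y]⟩ := by
          simp [hz5, hz4, hz3, hz2, hz1, hz0, hac.symm, hbc.symm]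
        rw [this]
        rfl
      rw [e6] at r6
      set z6 := update z5 c ⟨l.map bit, []⟩ with hz6
      obtain ⟨t, ht, r7⟩ := ih (2 * v + y.toNat) z6 (by simp [hz6, hz5, hac])
        (by simp [hz6, hz5, hz4, hbc, hab.symm]) (by simp [hz6])
      obtain ⟨t0, ht0, he⟩ := r7
      cases he with
      | @seq _ _ _ sm _ ta tb hA hB =>
        cases hA
        have r8 := run_op1 (d := d) c .left m z6
        have r9 : Prog.Run d (.loop (fun _ x => (x c).isSome) (.seq (dblP u a b)
            (.seq (.ite (fun _ x => decide (x c = some (bit true))) (push b u) nop)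
            (.seq (clr a) (.seq (popAll b a) (.seq (op1 a .rew) (.seq (op1 c .trunc)
              (op1 c .left))))))) : Prog M F α)
            ⟨m, update z6 c (Op.left.app d (z6 c))⟩ tb _ := ⟨tb, le_rfl, hB⟩
        have r10 := Prog.Run.loopT (c := fun (_ : M) (x : F → Option α) => (x c).isSome)
          (s := ⟨m, z0⟩) (by simp [Store.reads, Zip.peek, hz0])
          (r1.seq (r2.seq (r3.seq (r4.seq (r5.seq (r6.seq r8)))))) r9
        have e : halfZ z6 a b c ⟨[], List.replicate (l.foldl (fun x y => 2 * x + y.toNat)
            (2 * v + y.toNat)) u⟩ ⟨[], []⟩ ⟨[], []⟩ =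
            halfZ z a b c ⟨[], List.replicate ((y :: l).foldl (fun x y => 2 * x + y.toNat) v) u⟩
            ⟨[], []⟩ ⟨[], []⟩ := by
          unfold halfZ
          funext x
          rcases eq_or_ne x c with rfl | h1
          · simp
          · rcases eq_or_ne x b with rfl | h2
            · simp [h1]
            · rcases eq_or_ne x a with rfl | h3
              · simp [h1, h2]
              · simp [h1, h2, h3, hz6, hz5, hz4, hz3, hz2, hz1, hz0]
        rw [e] at r10
        refine ⟨_, ?_, r0.seq r10⟩
        simp only [List.foldl_cons, List.length_cons, List.length_replicate] at ht ⊢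
        have hy : y.toNat ≤ 1 := by cases y <;> simp
        omega
  intro l v z ha hbz hc
  obtain ⟨t, ht, r⟩ := key l v z ha hbz hc
  exact r.mono (by omega)

/-! ### Cutting the result -/

/-- Move right on `g` by two cells for every mark of `a`. -/
def skip2 (a g : F) : Prog M F α :=
  .loop (fun _ x => (x a).isSome) (.seq (op1 a .right) (.seq (op1 g .right) (op1 g .right)))

theorem run_skip2 {u : α} {a g : F} (hag : a ≠ g) (m : M) : ∀ (j : ℕ) (la lg : List α)
    (r r' : List α) (z : F → Zip α), r.length = 2 * j → z a = ⟨la, List.replicate j u⟩ →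
    z g = ⟨lg, r ++ r'⟩ →
    Prog.Run d (skip2 a g : Prog M F α) ⟨m, z⟩ (4 * j + 1)
      ⟨m, update (update z a ⟨List.replicate j u ++ la, []⟩) g ⟨r.reverse ++ lg, r'⟩⟩ := by
  intro j
  induction j with
  | zero =>
    intro la lg r r' z hr ha hg
    have hr0 : r = [] := List.length_eq_zero_iff.mp (by omega)
    subst hr0
    have e : update (update z a ⟨List.replicate 0 u ++ la, []⟩) g
        ⟨([] : List α).reverse ++ lg, r'⟩ = z := by
      rw [upd_same z (by simpa using ha), upd_same z (by simpa using hg)]
    rw [e]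
    exact (Prog.Run.loopF (by simp [Store.reads, Zip.peek, ha])).mono (by omega)
  | succ j ih =>
    intro la lg r r' z hr ha hg
    obtain ⟨x1, x2, r, rfl⟩ : ∃ x1 x2 r0, r = x1 :: x2 :: r0 := by
      match r, hr with
      | [], h => simp at h
      | [_], h => simp at h; omega
      | x1 :: x2 :: r0, _ => exact ⟨x1, x2, r0, rfl⟩
    have r1 := run_op1 (d := d) a .right m z
    have e1 : Op.right.app d (z a) = ⟨u :: la, List.replicate j u⟩ := by rw [ha]; rfl
    rw [e1] at r1
    set z1 := update z a ⟨u :: la, List.replicate j u⟩ with hz1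
    have r2 := run_op1 (d := d) g .right m z1
    have e2 : Op.right.app d (z1 g) = ⟨x1 :: lg, x2 :: (r ++ r')⟩ := by
      have : z1 g = ⟨lg, x1 :: x2 :: (r ++ r')⟩ := by simp [hz1, hag.symm, hg]
      rw [this]
      rfl
    rw [e2] at r2
    set z2 := update z1 g ⟨x1 :: lg, x2 :: (r ++ r')⟩ with hz2
    have r3 := run_op1 (d := d) g .right m z2
    have e3 : Op.right.app d (z2 g) = ⟨x2 :: x1 :: lg, r ++ r'⟩ := by
      have : z2 g = ⟨x1 :: lg, x2 :: (r ++ r')⟩ := by simp [hz2]
      rw [this]
      rfl
    rw [e3] at r3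
    set z3 := update z2 g ⟨x2 :: x1 :: lg, r ++ r'⟩ with hz3
    have r4 := ih (u :: la) (x2 :: x1 :: lg) r r' z3 (by simp at hr; omega)
      (by simp [hz3, hz2, hz1, hag]) (by simp [hz3])
    have e : update (update z3 a ⟨List.replicate j u ++ u :: la, []⟩) g
        ⟨r.reverse ++ x2 :: x1 :: lg, r'⟩ =
        update (update z a ⟨List.replicate (j + 1) u ++ la, []⟩) g
        ⟨(x1 :: x2 :: r).reverse ++ lg, r'⟩ := by
      have e1 : List.replicate j u ++ u :: la = List.replicate (j + 1) u ++ la := by
        rw [List.replicate_succ']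
        simp
      have e2 : r.reverse ++ x2 :: x1 :: lg = (x1 :: x2 :: r).reverse ++ lg := by simp
      rw [e1, e2]
      funext x
      rcases eq_or_ne x g with rfl | h1
      · simp
      · rcases eq_or_ne x a with rfl | h2
        · simp [h1]
        · simp [h1, h2, hz3, hz2, hz1]
    rw [e] at r4
    exact (Prog.Run.loopT (by simp [Store.reads, Zip.peek, ha, List.replicate_succ])
      (r1.seq (r2.seq r3)) r4).mono (by omega)

end Vale.Agent.P338.R3.H772
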