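import Vale.Agent.P338.R3.H772.Top

/-!
P338-D, TOP: the theorem.
-/

namespace Vale.Agent.P338.R3.H772

open Vale.Agent.P338.R2.H898
open Vale.Agent.P338.R2.H235 (exists_call)
open Vale.Agent.Lib.PolyTime (Enc PT pb esize)
open Function (update)

/-- The bits of a word, least significant bit first. -/
theorem getElem_eq_testBit (z : List Bool) (i : ℕ) (h : i < z.length) :
    z[i] = (lval z).testBit i := by
  induction z generalizing i with
  | nil => simp at h
  | cons b z ih =>
    cases i with
    | zero =>
      cases b <;> simp [lval, Nat.testBit_zero]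
    | succ i =>
      have h' : i < z.length := by simpa using h
      rw [List.getElem_cons_succ, ih i h', Nat.testBit_succ, lval]
      congr 1
      cases b
      · simp
      · simp only [Bool.toNat_true]
        omega

theorem reverse_take_eq_bin (z : List Bool) (k : ℕ) (h : k ≤ z.length) :
    (z.take k).reverse = bin k (lval z) := by
  apply List.ext_getElem
  · simp [bin, h]
  · intro i h1 h2
    simp only [List.length_reverse, List.length_take] at h1
    have hi : i < k := by omega
    have e : (z.take k).length = k := by simp [h]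
    simp only [bin, List.getElem_ofFn, List.getElem_reverse, List.getElem_take]
    rw [getElem_eq_testBit]
    congr 1
    omega

/-- Polynomials of the length are at most linear. -/
theorem pb_size_le (c : ℕ) : ∃ C : ℕ, ∀ n : ℕ, 1 ≤ n → pb c (esize n) ≤ C * n := by
  have h : ∃ C : ℕ, ∀ k : ℕ, (k + 2) ^ c ≤ C * 2 ^ k := by
    induction c with
    | zero => exact ⟨1, fun k => by simpa using Nat.one_le_two_pow⟩
    | succ c ih =>
      -- use `(k + 2) ^ (c + 1) ≤ C 2 ^ k` from the exponential growth
      have hlim := (tendsto_pow_const_div_const_pow_of_one_lt (c + 1) (r := (2 : ℝ))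
        (by norm_num)).bddAbove_range
      obtain ⟨R, hR⟩ := hlim
      have hR' : ∀ k : ℕ, (k : ℝ) ^ (c + 1) ≤ R * 2 ^ k := by
        intro k
        have := hR ⟨k, rfl⟩
        rw [div_le_iff₀ (by positivity)] at this
        exact this
      refine ⟨⌈R⌉₊ * 4, fun k => ?_⟩
      have h1 := hR' (k + 2)
      have h2 : R ≤ ⌈R⌉₊ := Nat.le_ceil R
      have h3 : (((k + 2 : ℕ) : ℝ)) ^ (c + 1) ≤ (⌈R⌉₊ * 4 : ℕ) * 2 ^ k := by
        refine h1.trans ?_
        push_cast
        rw [pow_add]
        have : (0 : ℝ) ≤ 2 ^ k := by positivity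
        nlinarith
      exact_mod_cast h3
  obtain ⟨C, hC⟩ := h
  refine ⟨C * 2, fun n hn => ?_⟩
  have h1 : esize n = n.size := by
    change n.bits.length = n.size
    exact Nat.size_eq_bits_len n
  have h2 : 2 ^ n.size ≤ 2 * n := by
    obtain ⟨s, hs⟩ : ∃ s, n.size = s + 1 :=
      ⟨n.size - 1, by have := Nat.size_pos.mpr (show 0 < n by omega); omega⟩
    have h3 : 2 ^ s ≤ n := by
      rw [← Nat.lt_size]
      omega
    rw [hs, pow_succ]
    omega
  calc pb c (esize n) = (n.size + 2) ^ c := by rw [h1]; rfl
    _ ≤ C * 2 ^ n.size := hC _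
    _ ≤ C * (2 * n) := Nat.mul_le_mul_left _ h2
    _ = C * 2 * n := by ring

/-- **TOP.** -/
theorem top : TopStatement := by
  intro M F α P _ hM hF hα _ d enc dl hdl m0 core fx fy fp fr V cap cost par hnd hcore hpar hcap
    hV hn
  classical
  set bit : Bool → α := fun b => enc (bitL b) with hbit
  have henc : Function.Injective enc := fun a b h => by rw [← hdl a, ← hdl b, h]
  have hb : bit true ≠ bit false := fun h => by
    have := henc h
    simp [bitL] at this
  have hh : ∀ b, bit b ≠ enc .hash := fun b h => by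
    have := henc h
    cases b <;> simp [bitL] at this
  obtain ⟨hxy, hxp, hyp⟩ : fx ≠ fy ∧ fx ≠ fp ∧ fy ≠ fp := by
    simp at hnd
    tauto
  obtain ⟨p1, W1, c1, -, H1⟩ := exists_call hpar
  obtain ⟨p2, W2, c2, -, H2⟩ := exists_call hcap
  set W := max W1 W2 with hW
  have hW1 : W1 ≤ W := le_max_left _ _
  have hW2 : W2 ≤ W := le_max_right _ _
  obtain ⟨C1, hC1⟩ := pb_size_le c1
  obtain ⟨C2, hC2⟩ := pb_size_le c2
  set u : α := bit true with hu
  let prog : Prog M (TF W F) α := .seq (topIn u (enc .hash) (bit false) (bit true) fx fy)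
    (.seq (topMid u bit fx fy fp p1 p2) (.seq (core.map (Lens.idL M) co) (topOut fr)))
  haveI : Fintype (TF W F) := Fintype.ofFinite _
  obtain ⟨B, hB⟩ := Comp.machine (M := M) (F := TF W F) (α := α) d enc dl hdl m0 (.inl .inp)
    (.inl .out) prog
  set C : ℕ := 8 * (C1 + C2) + 2000 with hCdef
  have key : ∀ n : ℕ, 1 ≤ n → ∀ x y : List Bool, x.length = n → y.length = n →
      B.Computes (mulWord x y) ((bin (2 * n) (val x * val y)).map bitL) ∧
      B.time (mulWord x y) ≤ C * (cost (par n) + cap (par n)) := by
    intro n hn1 x y hx hy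
    set N := cap (par n) with hN
    have hnN : n ≤ N := hn n hn1
    have r1 := run_topIn (W := W) (d := d) (u := u) (h := enc .hash) (bit := bit) hh hxy m0 x y n
      hy hx
    have r2 := run_topMid (W := W) (d := d) (u := u) (bit := bit) hb hxy hxp hyp (par := par)
      (cap := cap) (p1 := p1) (p2 := p2) (t1 := fun a => pb c1 (esize a))
      (t2 := fun a => pb c2 (esize a)) m0
      (fun z a ha hz hs => H1 (M := M) (d := d) (bit := bit) (ι := scr W F)
        (fun i hi j hj h => scr_inj i (by omega) j (by omega) h) hb (by simp)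
        (fun i hi => scr_ne_inl (by omega) _) (fun i hi => scr_ne_co (by omega) _) m0 z a ha hz
        (fun i hi => hs i (by omega)))
      (fun z a ha hz hs => H2 (M := M) (d := d) (bit := bit) (ι := scr W F)
        (fun i hi j hj h => scr_inj i (by omega) j (by omega) h) hb (by simp)
        (fun i hi => scr_ne_inl (by omega) _) (fun i hi => scr_ne_inl (by omega) _) m0 z a ha hz
        (fun i hi => hs i (by omega)))
      x.reverse y.reverse n (by simpa using hx) (by simpa using hy) hnN
    obtain ⟨s', z, r3, hz1, hz2, hz3⟩ := hcore (par n) (hV n hn1)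
      (x.reverse ++ List.replicate (N - n) false) (y.reverse ++ List.replicate (N - n) false)
      (by simp [hx]; omega) (by simp [hy]; omega)
    have r3' := run_core (W := W) (i := ⟨[], []⟩) (u1 := ⟨[], []⟩)
      (u2 := ⟨[], List.replicate n u⟩) (v := ⟨[], List.replicate N u⟩)
      (nb := ⟨[], n.bits.map bit⟩) (cb := ⟨[], []⟩) (o := ⟨[], []⟩) (m' := s'.m) (c' := s'.z) r3
    obtain ⟨s4, r4, h4⟩ := run_topOut (W := W) (d := d) (u := u) (bit := bit) (fr := fr) s'.m z n
      (by omega) (i := ⟨[], []⟩) (u1 := ⟨[], []⟩) (v := ⟨[], List.replicate N u⟩)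
      (nb := ⟨[], n.bits.map bit⟩) (cb := ⟨[], []⟩) (c := s'.z) hz1
    have hrun := r1.seq (r2.seq (r3'.seq r4))
    -- the value
    have hval : lval z = val x * val y := by
      rw [hz3, lval_append, lval_append, lval_replicate_false, Nat.mul_zero, Nat.add_zero,
        Nat.mul_zero, Nat.add_zero, val_eq_lval, val_eq_lval]
    have hfull : (s4.z (.inl .out)).full = ((bin (2 * n) (val x * val y)).map bitL).map enc := by
      rw [h4, reverse_take_eq_bin z (2 * n) (by omega), hval, List.map_map]
      rfl
    -- the initial store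
    have hinit : (fun f : TF W F => if f = .inl .inp then
        (⟨((mulWord x y).map enc).reverse, []⟩ : Zip α) else ⟨[], []⟩) =
        tst W ⟨(y.map bit).reverse ++ enc .hash :: (x.map bit).reverse, []⟩ ⟨[], []⟩ ⟨[], []⟩
        ⟨[], []⟩ ⟨[], []⟩ ⟨[], []⟩ ⟨[], []⟩ (fun _ => ⟨[], []⟩) := by
      funext f
      rcases f with k | k | k
      · cases k <;> simp [tst, mulWord, hbit, Function.comp_def]
      · simp [tst]
      · simp [tst]
    rw [← hinit] at hrun
    obtain ⟨g1, g2⟩ := hB (mulWord x y) ((bin (2 * n) (val x * val y)).map bitL) _ s4 hrun hfull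
    refine ⟨g1, g2.trans ?_⟩
    have e1 : (mulWord x y).length = 2 * n + 1 := by
      simp [mulWord, hx, hy]
      omega
    have e2 : ((bin (2 * n) (val x * val y)).map bitL).length = 2 * n := by
      simp [bin]
    rw [e1, e2]
    have e3 := hC1 n hn1
    have e4 := hC2 n hn1
    have e5 : C1 * n ≤ C1 * N := Nat.mul_le_mul_left _ hnN
    have e6 : C2 * n ≤ C2 * N := Nat.mul_le_mul_left _ hnN
    have e7 : C * (cost (par n) + N) = 8 * (C1 * cost (par n)) + 8 * (C2 * cost (par n)) +
        2000 * cost (par n) + (8 * (C1 * N) + 8 * (C2 * N) + 2000 * N) := by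
      rw [hCdef]
      ring
    rw [e7]
    have e8 : 1 ≤ N := by omega
    omega
  refine ⟨B, fun n hn1 x y hx hy => (key n hn1 x y hx hy).1, C, fun n hn1 => ?_⟩
  unfold mulTime
  refine csSup_le ?_ ?_
  · exact ⟨_, List.replicate n false, List.replicate n false, by simp, by simp, rfl⟩
  · rintro t ⟨x, y, hx, hy, rfl⟩
    exact (key n hn1 x y hx hy).2

end Vale.Agent.P338.R3.H772
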