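import Vale.Agent.P338.R2.H235.Slow
import Vale.Agent.P338.R3.H772.TopSpec
import Vale.Agent.P338.R2.H968.PadCall

/-!
P338-D, TOP: small programs on files (splitting the input, unary and binary numbers).
-/

namespace Vale.Agent.P338.R3.H772

open Vale.Agent.P338.R2.H898
open Vale.Agent.P338.R2.H235 (op1 run_op1 push run_push cpy run_cpy popAll run_popAll clr run_clr)
open Function (update)

variable {M F α : Type} [DecidableEq F] {d : α}

/-- Two updates of different files commute, in the form needed below. -/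
theorem upd_same (z : F → Zip α) {f : F} {v : Zip α} (h : z f = v) : update z f v = z := by
  subst h
  exact Function.update_eq_self f z

/-! ### Moving to the end -/

/-- Go to the end of a file. -/
def toEnd (g : F) : Prog M F α := .loop (fun _ x => (x g).isSome) (op1 g .right)

theorem run_toEnd {g : F} (m : M) (r : List α) : ∀ (l : List α) (z : F → Zip α), z g = ⟨l, r⟩ →
    Prog.Run d (toEnd g : Prog M F α) ⟨m, z⟩ (2 * r.length + 1)
      ⟨m, update z g ⟨r.reverse ++ l, []⟩⟩ := by
  induction r with
  | nil =>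
    intro l z hg
    rw [upd_same z (by simpa using hg)]
    exact (Prog.Run.loopF (by simp [Store.reads, Zip.peek, hg])).mono (by omega)
  | cons a r ih =>
    intro l z hg
    have h1 := run_op1 (d := d) g .right m z
    have h2 := ih (a :: l) (update z g ⟨a :: l, r⟩) (by simp)
    have e : Op.right.app d (z g) = ⟨a :: l, r⟩ := by rw [hg]; rfl
    rw [e] at h1
    have h3 := Prog.Run.loopT (c := fun (_ : M) (x : F → Option α) => (x g).isSome)
      (by simp [Store.reads, Zip.peek, hg]) h1 h2
    refine Prog.Run.mono ?_ (show 1 + 1 + (2 * r.length + 1) ≤ _ by simp; omega)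
    simpa [toEnd] using h3

/-! ### Splitting the input -/

open Classical in
/-- Pop the symbols of `g` and append them to `f` until the symbol `h` is found; append marks to
`u1` and `u2`. -/
noncomputable def splitP (h u : α) (g f u1 u2 : F) : Prog M F α :=
  .seq (op1 g .left) (.loop (fun _ x => (x g).isSome && decide (x g ≠ some h))
    (.seq (cpy g f) (.seq (push u1 u) (.seq (push u2 u) (.seq (op1 g .trunc) (op1 g .left))))))

/-- The store during the splitting. -/
def splitZ (z : F → Zip α) (g f u1 u2 : F) (zg zf z1 z2 : Zip α) : F → Zip α :=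
  update (update (update (update z f zf) u1 z1) u2 z2) g zg

theorem run_split {h u : α} {g f u1 u2 : F} (hnd : [g, f, u1, u2].Nodup) (m : M) (l : List α)
    (l2 : List α) (hl : ∀ a ∈ l, a ≠ h) : ∀ (lf l1 l3 : List α) (z : F → Zip α),
    z g = ⟨l ++ h :: l2, []⟩ → z f = ⟨lf, []⟩ → z u1 = ⟨l1, []⟩ → z u2 = ⟨l3, []⟩ →
    Prog.Run d (splitP h u g f u1 u2 : Prog M F α) ⟨m, z⟩ (9 * l.length + 2)
      ⟨m, splitZ z g f u1 u2 ⟨l2, [h]⟩ ⟨l.reverse ++ lf, []⟩ ⟨List.replicate l.length u ++ l1, []⟩
        ⟨List.replicate l.length u ++ l3, []⟩⟩ := by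
  classical
  obtain ⟨hgf, hg1, hg2, hf1, hf2, h12⟩ : g ≠ f ∧ g ≠ u1 ∧ g ≠ u2 ∧ f ≠ u1 ∧ f ≠ u2 ∧ u1 ≠ u2 := by
    simp at hnd
    tauto
  induction l with
  | nil =>
    intro lf l1 l3 z hg hf h1 h2
    have r0 := run_op1 (d := d) g .left m z
    have e0 : Op.left.app d (z g) = ⟨l2, [h]⟩ := by rw [hg]; rfl
    rw [e0] at r0
    have e : splitZ z g f u1 u2 ⟨l2, [h]⟩ ⟨([] : List α).reverse ++ lf, []⟩
        ⟨List.replicate ([] : List α).length u ++ l1, []⟩
        ⟨List.replicate ([] : List α).length u ++ l3, []⟩ = update z g ⟨l2, [h]⟩ := by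
      unfold splitZ
      congr 1
      rw [upd_same z (by simpa using hf), upd_same z (by simpa using h1),
        upd_same z (by simpa using h2)]
    rw [e]
    refine (r0.seq (Prog.Run.loopF ?_)).mono (by simp)
    simp [Store.reads, Zip.peek]
  | cons a l ih =>
    intro lf l1 l3 z hg hf h1 h2
    have hah : a ≠ h := hl a (by simp)
    have r0 := run_op1 (d := d) g .left m z
    have e0 : Op.left.app d (z g) = ⟨l ++ h :: l2, [a]⟩ := by rw [hg]; rfl
    rw [e0] at r0
    set z0 := update z g ⟨l ++ h :: l2, [a]⟩ with hz0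
    have r1 := run_cpy (d := d) (g := g) (f := f) (a := a) (l := l ++ h :: l2) (l' := lf) (r := [])
      m z0 (by simp [hz0]) (by simp [hz0, hgf.symm, hf])
    set z1 := update z0 f ⟨a :: lf, []⟩ with hz1
    have r2 := run_push (d := d) u1 u m z1 l1 (by simp [hz1, hz0, hf1.symm, hg1.symm, h1])
    set z2 := update z1 u1 ⟨u :: l1, []⟩ with hz2
    have r3 := run_push (d := d) u2 u m z2 l3
      (by simp [hz2, hz1, hz0, hf2.symm, hg2.symm, h12.symm, h2])
    set z3 := update z2 u2 ⟨u :: l3, []⟩ with hz3
    have r4 := run_op1 (d := d) g .trunc m z3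
    have e4 : Op.trunc.app d (z3 g) = ⟨l ++ h :: l2, []⟩ := by
      have : z3 g = ⟨l ++ h :: l2, [a]⟩ := by simp [hz3, hz2, hz1, hz0, hg2, hg1, hgf]
      rw [this]
      rfl
    rw [e4] at r4
    set z4 := update z3 g ⟨l ++ h :: l2, []⟩ with hz4
    have r5 := ih (fun b hb => hl b (by simp [hb])) (a :: lf) (u :: l1) (u :: l3) z4
      (by simp [hz4]) (by simp [hz4, hz3, hz2, hz1, hgf.symm, hf1, hf2])
      (by simp [hz4, hz3, hz2, hg1.symm, h12]) (by simp [hz4, hz3, hg2.symm])
    obtain ⟨t, ht, he⟩ := r5
    cases he with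
    | @seq _ _ _ sm _ ta tb ha hb' =>
      cases ha
      have r6 : Prog.Run d (.loop (fun _ x => (x g).isSome && decide (x g ≠ some h))
          (.seq (cpy g f) (.seq (push u1 u) (.seq (push u2 u)
            (.seq (op1 g .trunc) (op1 g .left))))) : Prog M F α)
          ⟨m, update z4 g (Op.left.app d (z4 g))⟩ tb _ := ⟨tb, le_rfl, hb'⟩
      have r7 := run_op1 (d := d) g .left m z4
      have r8 := Prog.Run.loopT (c := fun (_ : M) (x : F → Option α) => (x g).isSome &&
        decide (x g ≠ some h)) (s := ⟨m, z0⟩) (by simp [Store.reads, Zip.peek, hz0, hah])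
        (r1.seq (r2.seq (r3.seq (r4.seq r7)))) r6
      have e : splitZ z4 g f u1 u2 ⟨l2, [h]⟩ ⟨l.reverse ++ a :: lf, []⟩
          ⟨List.replicate l.length u ++ u :: l1, []⟩ ⟨List.replicate l.length u ++ u :: l3, []⟩ =
          splitZ z g f u1 u2 ⟨l2, [h]⟩ ⟨(a :: l).reverse ++ lf, []⟩
          ⟨List.replicate (a :: l).length u ++ l1, []⟩
          ⟨List.replicate (a :: l).length u ++ l3, []⟩ := by
        have e1 : ∀ w : List α, List.replicate l.length u ++ u :: w =
            List.replicate (a :: l).length u ++ w := by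
          intro w
          rw [List.length_cons, List.replicate_succ']
          simp
        have e2 : l.reverse ++ a :: lf = (a :: l).reverse ++ lf := by simp
        rw [e1, e1, e2]
        unfold splitZ
        funext x
        rcases eq_or_ne x g with rfl | hx1
        · simp
        · rcases eq_or_ne x u2 with rfl | hx2
          · simp [hx1]
          · rcases eq_or_ne x u1 with rfl | hx3
            · simp [hx1, hx2]
            · rcases eq_or_ne x f with rfl | hx4
              · simp [hx1, hx2, hx3]
              · simp [hx1, hx2, hx3, hx4, hz4, hz3, hz2, hz1, hz0]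
      rw [e] at r8
      refine (r0.seq r8).mono ?_
      simp only [List.length_cons]
      omega

end Vale.Agent.P338.R3.H772
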