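import Vale.Agent.P338.R3.H772.Wire
import Vale.Agent.P338.R3.H831.NFBest
import Vale.Agent.P338.R3.H121.Par
import Vale.Agent.P338.R3.H651.Adapt

/-!
P338-D: the final composition, with the parameters of helper121 and the stages of helper831. What
is left are the core program and its cost `CostNF` as a function of the parameters.
-/

namespace Vale.Agent.P338.R3.H772

open Vale.Agent.P338.R2.H898
open Vale.Agent.Lib.PolyTime (Enc PT)
open Vale.Agent.P338.R3.H831 Vale.Agent.P338.R3.H121 Vale.Agent.P338.R3.H501.Rad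
open Vale.Agent.P338.R3.H527
open Filter Topology

/-- **The cost of the core program** in terms of the parameters `(d, s, yE E d s)`. -/
def CostNF (A : MTM) (E : ℕ) (cst : P0 → ℕ) : Prop :=
  ∃ (C : ℝ) (K : ℕ) (D b l : ℕ → ℕ → ℕ), 0 < C ∧ ∀ d s, d + 1 ≤ s →
    (d ≤ D d s ∧ (D d s : ℝ) ≤ C * (d + s + 1 : ℝ) ^ K) ∧
    (1 ≤ b d s ∧ (b d s : ℝ) ≤ C * bW d s (yE E d s)) ∧
    (1 ≤ l d s ∧ (l d s : ℝ) ≤ C * ell d s (yE E d s)) ∧
    (cst (mkP d s (yE E d s)) : ℝ) ≤ C * cap d s (yE E d s) *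
      ((s + aR d * (Nat.sqrt d + 1)) * (sgB (D d s) + kap A (b d s)) +
        (s + aR d * d) * rtB (D d s) + kap A (l d s))

theorem one_le_sgB (D : ℕ) : 1 ≤ sgB D := by
  unfold sgB
  have h1 : (0 : ℝ) ≤ (best D).2.length := Nat.cast_nonneg _
  have h2 : (0 : ℝ) ≤ (best D).1 := Nat.cast_nonneg _
  linarith

theorem nf_real {C C' Cc T cs cp s p r sg kb rt kl : ℝ} (hC : 0 < C) (hC' : 0 ≤ C')
    (hCc : 0 ≤ Cc) (hs : 1 ≤ s) (hp : 0 ≤ p) (hr : 0 ≤ r) (hsg : 1 ≤ sg) (hkb : 0 ≤ kb)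
    (hrt : 0 ≤ rt) (hkl : 0 ≤ kl) (hcp : 0 ≤ cp) (h : T ≤ C' * (cs + cp))
    (e : cs ≤ C * cp * ((s + p) * (sg + kb) + (s + r) * rt + kl)) :
    T ≤ (C + Cc + C' * (C + 1)) * cp * ((s + p) * (sg + kb) + (s + r) * rt + kl) := by
  set X : ℝ := (s + p) * (sg + kb) + (s + r) * rt + kl with hX
  have hX1 : 1 ≤ X := by
    have q6 : 0 ≤ (s + r) * rt := by positivity
    have q7 : 1 ≤ (s + p) * (sg + kb) :=
      one_le_mul_of_one_le_of_one_le (by linarith) (by linarith)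
    linarith
  calc T ≤ C' * (cs + cp) := h
    _ ≤ C' * (C * cp * X + cp * X) := by
        refine mul_le_mul_of_nonneg_left (add_le_add e ?_) hC'
        exact le_mul_of_one_le_right hcp hX1
    _ = C' * (C + 1) * (cp * X) := by ring
    _ ≤ (C + Cc + C' * (C + 1)) * (cp * X) := by
        refine mul_le_mul_of_nonneg_right ?_ (by positivity)
        linarith
    _ = _ := by ring

theorem parD_eq (E d n : ℕ) : parD E d n = mkP d (sN E d n) (yE E d (sN E d n)) := rfl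

theorem capP_mkP (d s y : ℕ) : capP (mkP d s y) = cap d s y := rfl

/-- From the cost of the core program to the normal form of the running time. -/
theorem nf_of_cost {A B : MTM} {E : ℕ} {cst : P0 → ℕ} (h : CostNF A E cst) (dg : ℕ → ℕ)
    (hdg : ∀ n, dg n = 0 ∨ capD E (dg n) ≤ n)
    (hB : ∃ C : ℕ, ∀ n, 1 ≤ n →
      mulTime B n ≤ C * (cst (parD E (dg n) n) + capP (parD E (dg n) n))) :
    NF A B E sgB rtB (fun n => (dg n, sN E (dg n) n)) := by
  obtain ⟨C, K, D, b, l, hC, h⟩ := h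
  obtain ⟨C', hB⟩ := hB
  have hcap : ∀ n, 1 ≤ n → (cap (dg n) (sN E (dg n) n) (yE E (dg n) (sN E (dg n) n)) : ℝ) ≤
      ((2 * 2 ^ E * (E + 2) ^ 8 + capD E 0 : ℕ) : ℝ) * n := fun n hn => by
    have := capE_sN_le E n hn (hdg n)
    unfold capE at this
    exact_mod_cast this
  generalize ((2 * 2 ^ E * (E + 2) ^ 8 + capD E 0 : ℕ)) = Cc at hcap
  have hCc0 : (0 : ℝ) ≤ Cc := Nat.cast_nonneg _
  have hC'0 : (0 : ℝ) ≤ C' := Nat.cast_nonneg _
  have hge : C ≤ C + Cc + C' * (C + 1) := by nlinarith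
  have hge' : (Cc : ℝ) ≤ C + Cc + C' * (C + 1) := by nlinarith
  refine ⟨C + Cc + C' * (C + 1), K, D, b, l, by positivity, ?_⟩
  intro n hn d s y hp hy
  obtain ⟨h1, h2⟩ := Prod.mk.inj hp
  have hs1 : dg n + 1 ≤ sN E (dg n) n := sN_ge E (dg n) n
  have hB' := hB n hn
  have hc' := hcap n hn
  rw [parD_eq, capP_mkP] at hB'
  rw [h1] at h2 hs1 hB' hc'
  rw [h2] at hs1 hB' hc'
  rw [← hy] at hB' hc'
  obtain ⟨⟨a1, a2⟩, ⟨b1, b2⟩, ⟨c1, c2⟩, e⟩ := h d s hs1
  rw [← hy] at b2 c2 e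
  have hT : (mulTime B n : ℝ) ≤ C' * (cst (mkP d s y) + cap d s y) := by exact_mod_cast hB'
  have hs : 1 ≤ s := (Nat.le_add_left 1 d).trans hs1
  have hn0 : (0 : ℝ) ≤ n := Nat.cast_nonneg _
  refine ⟨hs, ⟨a1, a2.trans ?_⟩, ⟨b1, b2.trans ?_⟩, ⟨c1, c2.trans ?_⟩, ?_, ?_⟩
  · exact mul_le_mul_of_nonneg_right hge (by positivity)
  · exact mul_le_mul_of_nonneg_right hge (Nat.cast_nonneg _)
  · exact mul_le_mul_of_nonneg_right hge (Nat.cast_nonneg _)
  · exact hc'.trans (mul_le_mul_of_nonneg_right hge' hn0)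
  · exact nf_real hC hC'0 hCc0 (by exact_mod_cast hs) (by positivity) (by positivity)
      (one_le_sgB _) (kap_nonneg A _) (rtB_nonneg _) (kap_nonneg A _) (Nat.cast_nonneg _) hT e

/-- The stages without digits. -/
theorem stageForA {A : MTM} {E : ℕ} (hE : 1 ≤ E) {cst : P0 → ℕ} (h : CostNF A E cst) :
    StageFor VP capP cst (StageA A) := by
  refine ⟨parA E, pt_parA E, pt_capP (pt_parA E), fun n _ => parA_mem hE n,
    fun n _ => le_capP_parA E n, fun B hB => ?_⟩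
  have hB' : ∃ C : ℕ, ∀ n, 1 ≤ n → mulTime B n ≤
      C * (cst (parD E ((fun _ => 0 : ℕ → ℕ) n) n) + capP (parD E ((fun _ => 0 : ℕ → ℕ) n) n)) := by
    obtain ⟨C, hC⟩ := hB
    exact ⟨C, fun n hn => hC n hn⟩
  have h1 := nf_of_cost (B := B) h (fun _ => 0) (fun _ => Or.inl rfl) hB'
  exact stageA_of_best (par := fun n => (0, sN E 0 n)) (fun _ _ => rfl) h1

/-- The stage with digits (for every family of short programs). -/
theorem stageForB (hPI : ∀ ε : ℝ, 0 < ε → ∃ m l, Good m l ∧ (l.length : ℝ) ≤ ε * (m * 2 ^ m))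
    {A : MTM} {E : ℕ} (hE : 1 ≤ E) {cst : P0 → ℕ} (h : CostNF A E cst) :
    StageFor VP capP cst (StageB A) := by
  refine ⟨parB E, pt_parB E, pt_capP (pt_parB E), fun n _ => parB_mem hE n,
    fun n _ => le_capP_parB E n, fun B hB => ?_⟩
  have hd : ∀ n, dN E n = 0 ∨ capD E (dN E n) ≤ n := by
    intro n
    rcases Nat.eq_zero_or_pos (dN E n) with h | h
    · exact Or.inl h
    · exact Or.inr (capD_dN E n h)
  have hB' : ∃ C : ℕ, ∀ n, 1 ≤ n → mulTime B n ≤
      C * (cst (parD E (dN E n) n) + capP (parD E (dN E n) n)) := by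
    obtain ⟨C, hC⟩ := hB
    exact ⟨C, fun n hn => hC n hn⟩
  have h1 := nf_of_cost (B := B) h (dN E) hd hB'
  refine stageB_of_best (par := fun n => (dN E n, sN E (dN E n) n)) (c := 100 * (E + 1)) hPI
    (by positivity) (tendsto_dN E) ?_ h1
  filter_upwards [eventually_ge_atTop 1] with n hn
  have := sN_le E n
  exact_mod_cast this

/-- **The final composition**: what is left are the core program and its cost. -/
theorem fast_of_cost (hcore : ∀ A, Multiplies A → ∃ (E : ℕ) (cst : P0 → ℕ), 1 ≤ E ∧ CostNF A E cst ∧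
      HasCore VP capP cst) :
    ∃ A, Multiplies A ∧ FastAlways A := by
  refine fast_of_core' (V := VP) (cap := capP) (Bd := fun A cst => ∃ E, 1 ≤ E ∧ CostNF A E cst)
    (fun A hA => ?_) (fun A _ cst h => ?_) (fun A _ cst h => ?_)
  · obtain ⟨E, cst, hE, h1, h2⟩ := hcore A hA
    exact ⟨cst, ⟨E, hE, h1⟩, h2⟩
  · obtain ⟨E, hE, h⟩ := h
    exact stageForA hE h
  · obtain ⟨E, hE, h⟩ := h
    exact stageForB H651.hPI hE h

end Vale.Agent.P338.R3.H772
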